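import Mathlib

-- ▼ part Lib/OrthPoinc/Gap
section

set_option autoImplicit false

/-!
Abstract spectral gap lemma: for a symmetric positive semidefinite form `B` on a finite dimensional
real space and a `B`-symmetric, `B`-positive operator `T` with `T^2 ≥ ρ T`, every `f` splits as
`f0 + f1` with `B(T f0, f0) = 0` and `ρ B(f1,f1) ≤ B(T f, f)`.
-/

namespace Crest.Agent.Lib.OrthPoinc

section Gap

variable {V : Type*} [AddCommGroup V] [Module ℝ V]

theorem cs_of_pos (Q : LinearMap.BilinForm ℝ V) (hs : ∀ x y, Q x y = Q y x)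
    (hp : ∀ x, 0 ≤ Q x x) (x y : V) : (Q x y) ^ 2 ≤ Q x x * Q y y :=
  LinearMap.BilinForm.apply_sq_le_of_symm Q hp ⟨fun x y => by simpa using hs x y⟩ x y

variable [FiniteDimensional ℝ V]

theorem gap_of_sq (B : LinearMap.BilinForm ℝ V) (hsymm : ∀ x y, B x y = B y x)
    (hpos : ∀ x, 0 ≤ B x x) (T : V →ₗ[ℝ] V) (hT : ∀ x y, B (T x) y = B x (T y))
    (hTpos : ∀ x, 0 ≤ B (T x) x) (ρ : ℝ) (hρ : 0 < ρ)
    (hgap : ∀ x, ρ * B (T x) x ≤ B (T x) (T x)) (f : V) :
    ∃ f0 : V, B (T f0) f0 = 0 ∧ ρ * B (f - f0) (f - f0) ≤ B (T f) f := by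
  classical
  -- the form `(x,y) ↦ B (T x) y`
  set Q : LinearMap.BilinForm ℝ V := B.comp T LinearMap.id with hQdef
  have hQ : ∀ x y, Q x y = B (T x) y := fun x y => by simp [hQdef]
  have hQs : ∀ x y, Q x y = Q y x := by
    intro x y
    rw [hQ, hQ, hT, hsymm]
  have hQp : ∀ x, 0 ≤ Q x x := fun x => by rw [hQ]; exact hTpos x
  have hcs := cs_of_pos Q hQs hQp
  -- null vectors
  have hnull : ∀ x, Q (T x) (T x) = 0 → Q x x = 0 := by
    intro x hx
    have h1 := hcs x (T x)
    rw [hx, mul_zero] at h1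
    have h2 : Q x (T x) = 0 := by nlinarith [sq_nonneg (Q x (T x))]
    rw [hQ] at h2
    have h3 := hgap x
    rw [h2] at h3
    have h4 := hTpos x
    rw [hQ]
    nlinarith
  have hpow : ∀ (n : ℕ) (x : V), (T ^ n) x = 0 → Q x x = 0 := by
    intro n
    induction n with
    | zero => intro x hx; simp at hx; simp [hx]
    | succ n ih =>
      intro x hx
      apply hnull
      apply ih
      rw [pow_succ] at hx
      simpa using hx
  obtain ⟨n, hn1, hn⟩ := ((Filter.eventually_ge_atTop 1).and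
    (LinearMap.eventually_isCompl_ker_pow_range_pow (R := ℝ) (M := V) T)).exists
  have hmem : f ∈ LinearMap.ker (T ^ n) ⊔ LinearMap.range (T ^ n) := by
    rw [hn.sup_eq_top]; trivial
  obtain ⟨f0, hf0, f1, hf1, hff⟩ := Submodule.mem_sup.mp hmem
  obtain ⟨g', hg'⟩ := hf1
  obtain ⟨m, rfl⟩ : ∃ m, n = m + 1 := ⟨n - 1, by omega⟩
  set g := (T ^ m) g' with hg
  have hfg : f1 = T g := by
    rw [← hg', pow_succ', hg]; rfl
  have hn0 : Q f0 f0 = 0 := hpow _ f0 hf0
  refine ⟨f0, by rw [← hQ]; exact hn0, ?_⟩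
  have hf01 : f - f0 = f1 := by rw [← hff]; abel
  rw [hf01]
  have hz : ∀ y, Q f0 y = 0 := by
    intro y
    have h1 := hcs f0 y
    rw [hn0, zero_mul] at h1
    nlinarith [sq_nonneg (Q f0 y)]
  have hQf : B (T f) f = Q f1 f1 := by
    rw [← hQ, ← hff]
    have e : Q (f0 + f1) (f0 + f1) = Q f0 f0 + Q f0 f1 + (Q f1 f0 + Q f1 f1) := by
      simp only [map_add, LinearMap.add_apply]; ring
    rw [e, hn0, hz f1, hQs f1 f0, hz f1]; ring
  rw [hQf]
  have h1 := hcs g f1
  have h2 := hgap g
  have h3 : Q g f1 = B f1 f1 := by rw [hQ, ← hfg]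
  have h4 : B (T g) (T g) = B f1 f1 := by rw [← hfg]
  rw [h3] at h1
  rw [h4, ← hQ] at h2
  have h5 := hpos f1
  have h6 := hQp f1
  rcases h5.eq_or_lt with h | h
  · rw [← h]; simpa using h6
  · have : B f1 f1 * (ρ * B f1 f1) ≤ B f1 f1 * Q f1 f1 := by
      calc B f1 f1 * (ρ * B f1 f1) = ρ * (B f1 f1) ^ 2 := by ring
        _ ≤ ρ * (Q g g * Q f1 f1) := by gcongr
        _ = (ρ * Q g g) * Q f1 f1 := by ring
        _ ≤ B f1 f1 * Q f1 f1 := by gcongr
    exact le_of_mul_le_mul_left this h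

end Gap

end Crest.Agent.Lib.OrthPoinc
end

-- ▼ part Lib/OrthPoinc/Der
section

set_option autoImplicit false

/-!
Rotation derivations `Xd i j` on polynomials in the entries of an `n × n` matrix, their commutation
relations, the Casimir operator.
-/

namespace Crest.Agent.Lib.OrthPoinc

open MvPolynomial

variable {n : ℕ}

/-- Polynomials in the entries of an `n × n` matrix. -/
abbrev PolyM (n : ℕ) := MvPolynomial (Fin n × Fin n) ℝ

/-- Infinitesimal rotation of the columns `i`, `j`. -/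
noncomputable def Xd (i j : Fin n) : Derivation ℝ (PolyM n) (PolyM n) :=
  MvPolynomial.mkDerivation ℝ (fun ab : Fin n × Fin n =>
    (if ab.2 = j then (X (ab.1, i) : PolyM n) else 0) - (if ab.2 = i then X (ab.1, j) else 0))

theorem Xd_X (i j : Fin n) (a b : Fin n) :
    Xd i j (X (a, b)) = (if b = j then (X (a, i) : PolyM n) else 0) -
      (if b = i then X (a, j) else 0) := by
  simp [Xd, MvPolynomial.mkDerivation_X]

theorem Xd_swap (i j : Fin n) : Xd j i = - Xd i j := by
  apply MvPolynomial.derivation_ext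
  rintro ⟨a, b⟩
  rw [Derivation.neg_apply, Xd_X, Xd_X]
  ring

theorem Xd_swap_apply (i j : Fin n) (p : PolyM n) : Xd j i p = - Xd i j p := by
  rw [Xd_swap]; rfl

theorem Xd_self (i : Fin n) : Xd i i = 0 := by
  apply MvPolynomial.derivation_ext
  rintro ⟨a, b⟩
  rw [Xd_X]
  simp

/-- delta symbol -/
def dl (i j : Fin n) : ℝ := if i = j then 1 else 0

theorem dl_comm (i j : Fin n) : dl i j = dl j i := by
  unfold dl; simp [eq_comm]


theorem Xd_X' (i j : Fin n) (a b : Fin n) :
    Xd i j (X (a, b)) = dl b j • (X (a, i) : PolyM n) - dl b i • X (a, j) := by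
  rw [Xd_X]
  unfold dl
  split_ifs <;> simp

theorem Xd_comm (i j k l : Fin n) (p : PolyM n) :
    Xd i j (Xd k l p) - Xd k l (Xd i j p) =
      dl j k • Xd i l p - dl j l • Xd i k p - dl i k • Xd j l p + dl i l • Xd j k p := by
  have h : ⁅Xd i j, Xd k l⁆ =
      dl j k • Xd i l - dl j l • Xd i k - dl i k • Xd j l + dl i l • Xd j k := by
    apply MvPolynomial.derivation_ext
    rintro ⟨a, b⟩
    rw [Derivation.commutator_apply]
    simp only [Derivation.add_apply, Derivation.sub_apply, Derivation.smul_apply, Xd_X', map_sub,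
      Derivation.map_smul, smul_sub, smul_smul]
    rw [dl_comm j k, dl_comm j l, dl_comm i k, dl_comm i l]
    module
  have h2 := congrArg (fun D : Derivation ℝ (PolyM n) (PolyM n) => D p) h
  simpa [Derivation.commutator_apply] using h2

/-- Casimir operator (sum over ordered pairs). -/
noncomputable def Cas : PolyM n →ₗ[ℝ] PolyM n :=
  ∑ i : Fin n, ∑ j : Fin n, (Xd i j : PolyM n →ₗ[ℝ] PolyM n) ∘ₗ (Xd i j : PolyM n →ₗ[ℝ] PolyM n)

theorem Cas_apply (p : PolyM n) : Cas p = ∑ i : Fin n, ∑ j : Fin n, Xd i j (Xd i j p) := by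
  simp [Cas, LinearMap.sum_apply]


theorem sum_dl_smul' (i : Fin n) (f : Fin n → PolyM n) : ∑ j, dl j i • f j = f i := by
  simp [dl]

theorem Cas_comm (k l : Fin n) (p : PolyM n) : Cas (Xd k l p) = Xd k l (Cas p) := by
  rw [Cas_apply, Cas_apply, map_sum]
  simp only [map_sum]
  rw [← sub_eq_zero, ← Finset.sum_sub_distrib]
  simp only [← Finset.sum_sub_distrib]
  have key : ∀ i j : Fin n, Xd i j (Xd i j (Xd k l p)) - Xd k l (Xd i j (Xd i j p)) =
      (dl j k • (Xd i j (Xd i l p) + Xd i l (Xd i j p))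
        - dl j l • (Xd i j (Xd i k p) + Xd i k (Xd i j p)))
      + (dl i l • (Xd i j (Xd j k p) + Xd j k (Xd i j p))
        - dl i k • (Xd i j (Xd j l p) + Xd j l (Xd i j p))) := by
    intro i j
    have h1 := Xd_comm i j k l p
    have h2 := Xd_comm i j k l (Xd i j p)
    have h3 : Xd i j (Xd i j (Xd k l p)) = Xd i j (Xd k l (Xd i j p)) +
        Xd i j (dl j k • Xd i l p - dl j l • Xd i k p - dl i k • Xd j l p + dl i l • Xd j k p) := by
      rw [← h1, map_sub]; abel
    have h4 : Xd i j (Xd k l (Xd i j p)) = Xd k l (Xd i j (Xd i j p)) +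
        (dl j k • Xd i l (Xd i j p) - dl j l • Xd i k (Xd i j p) - dl i k • Xd j l (Xd i j p)
          + dl i l • Xd j k (Xd i j p)) := by
      rw [← h2]; abel
    rw [h3, h4]
    simp only [map_add, map_sub, Derivation.map_smul, smul_add]
    abel
  simp only [key]
  simp only [Finset.sum_add_distrib, Finset.sum_sub_distrib]
  have e1 : ∑ i : Fin n, ∑ j : Fin n, dl j k • (Xd i j (Xd i l p) + Xd i l (Xd i j p))
      = ∑ i : Fin n, (Xd i k (Xd i l p) + Xd i l (Xd i k p)) := by
    refine Finset.sum_congr rfl fun i _ => ?_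
    rw [sum_dl_smul' k (fun j => Xd i j (Xd i l p) + Xd i l (Xd i j p))]
  have e2 : ∑ i : Fin n, ∑ j : Fin n, dl j l • (Xd i j (Xd i k p) + Xd i k (Xd i j p))
      = ∑ i : Fin n, (Xd i l (Xd i k p) + Xd i k (Xd i l p)) := by
    refine Finset.sum_congr rfl fun i _ => ?_
    rw [sum_dl_smul' l (fun j => Xd i j (Xd i k p) + Xd i k (Xd i j p))]
  have e3 : ∑ i : Fin n, ∑ j : Fin n, dl i l • (Xd i j (Xd j k p) + Xd j k (Xd i j p))
      = ∑ j : Fin n, (Xd l j (Xd j k p) + Xd j k (Xd l j p)) := by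
    rw [Finset.sum_comm]
    refine Finset.sum_congr rfl fun j _ => ?_
    rw [sum_dl_smul' l (fun i => Xd i j (Xd j k p) + Xd j k (Xd i j p))]
  have e4 : ∑ i : Fin n, ∑ j : Fin n, dl i k • (Xd i j (Xd j l p) + Xd j l (Xd i j p))
      = ∑ j : Fin n, (Xd k j (Xd j l p) + Xd j l (Xd k j p)) := by
    rw [Finset.sum_comm]
    refine Finset.sum_congr rfl fun j _ => ?_
    rw [sum_dl_smul' k (fun i => Xd i j (Xd j l p) + Xd j l (Xd i j p))]
  rw [e1, e2, e3, e4]
  have e5 : ∑ i : Fin n, (Xd i k (Xd i l p) + Xd i l (Xd i k p)) -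
      ∑ i : Fin n, (Xd i l (Xd i k p) + Xd i k (Xd i l p)) = 0 := by
    rw [← Finset.sum_sub_distrib]
    exact Finset.sum_eq_zero fun i _ => by abel
  have e6 : ∑ j : Fin n, (Xd l j (Xd j k p) + Xd j k (Xd l j p)) -
      ∑ j : Fin n, (Xd k j (Xd j l p) + Xd j l (Xd k j p)) = 0 := by
    rw [← Finset.sum_sub_distrib]
    refine Finset.sum_eq_zero fun j _ => ?_
    rw [Xd_swap_apply j l (Xd j k p), Xd_swap_apply j k (Xd j l p), Xd_swap_apply j l p,
      Xd_swap_apply j k p, map_neg, map_neg]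
    abel
  rw [e5, e6]; simp

theorem Xd_totalDegree_le (i j : Fin n) (p : PolyM n) (d : ℕ) (hp : p.totalDegree ≤ d) :
    (Xd i j p).totalDegree ≤ d := by
  classical
  -- by linearity reduce to monomials
  have hmono : ∀ (s : (Fin n × Fin n) →₀ ℕ) (a : ℝ), (s.sum fun _ e => e) ≤ d →
      (Xd i j (monomial s a)).totalDegree ≤ d := by
    intro s a hs
    rw [Xd, MvPolynomial.mkDerivation_monomial]
    refine (MvPolynomial.totalDegree_smul_le _ _).trans ?_
    rw [Finsupp.sum]
    refine MvPolynomial.totalDegree_finsetSum_le ?_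
    intro ab hab
    rw [smul_eq_mul]
    refine (MvPolynomial.totalDegree_mul _ _).trans ?_
    have h1 : ((if ab.2 = j then (X (ab.1, i) : PolyM n) else 0) -
        (if ab.2 = i then X (ab.1, j) else 0)).totalDegree ≤ 1 := by
      refine (MvPolynomial.totalDegree_sub _ _).trans ?_
      apply max_le <;> split_ifs <;> simp
    have h2 : (monomial (s - Finsupp.single ab 1) ((s ab : ℕ) : ℝ)).totalDegree ≤
        ((s - Finsupp.single ab 1).sum fun _ e => e) := MvPolynomial.totalDegree_monomial_le _ _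
    have h3 : ((s - Finsupp.single ab 1).sum fun _ e => e) + 1 = (s.sum fun _ e => e) := by
      have hle : Finsupp.single ab 1 ≤ s := by
        rw [Finsupp.single_le_iff]
        have : s ab ≠ 0 := Finsupp.mem_support_iff.mp hab
        omega
      have h4 : s = (s - Finsupp.single ab 1) + Finsupp.single ab 1 := by
        rw [tsub_add_cancel_of_le hle]
      conv_rhs => rw [h4]
      rw [Finsupp.sum_add_index' (by simp) (by simp)]
      simp
    omega
  rw [MvPolynomial.as_sum p, map_sum]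
  refine MvPolynomial.totalDegree_finsetSum_le ?_
  intro s hs
  apply hmono
  exact (MvPolynomial.le_totalDegree hs).trans hp

end Crest.Agent.Lib.OrthPoinc
end

-- ▼ part Lib/OrthPoinc/Int
section

set_option autoImplicit false

/-!
Evaluation of polynomials on matrices, rotations of two columns, integration by parts.
-/

namespace Crest.Agent.Lib.OrthPoinc

open MvPolynomial MeasureTheory

variable {n : ℕ}

/-- `n × n` real matrices as functions. -/
abbrev Mat (n : ℕ) := Fin n → Fin n → ℝ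

/-- Evaluation of a polynomial at a matrix. -/
noncomputable def ev (p : PolyM n) (U : Mat n) : ℝ := MvPolynomial.eval (fun ab => U ab.1 ab.2) p

theorem ev_add (p q : PolyM n) (U : Mat n) : ev (p + q) U = ev p U + ev q U := by simp [ev]
theorem ev_sub (p q : PolyM n) (U : Mat n) : ev (p - q) U = ev p U - ev q U := by simp [ev]
theorem ev_mul (p q : PolyM n) (U : Mat n) : ev (p * q) U = ev p U * ev q U := by simp [ev]
theorem ev_neg (p : PolyM n) (U : Mat n) : ev (-p) U = - ev p U := by simp [ev]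
theorem ev_smul (c : ℝ) (p : PolyM n) (U : Mat n) : ev (c • p) U = c * ev p U := by
  simp [ev, MvPolynomial.smul_eval]
theorem ev_C (c : ℝ) (U : Mat n) : ev (C c) U = c := by simp [ev]
theorem ev_zero (U : Mat n) : ev 0 U = 0 := by simp [ev]
theorem ev_one (U : Mat n) : ev 1 U = 1 := by simp [ev]
theorem ev_X (a b : Fin n) (U : Mat n) : ev (X (a, b)) U = U a b := by simp [ev]
theorem ev_sum {ι : Type*} (s : Finset ι) (p : ι → PolyM n) (U : Mat n) :
    ev (∑ i ∈ s, p i) U = ∑ i ∈ s, ev (p i) U := by simp [ev]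
theorem ev_pow (p : PolyM n) (k : ℕ) (U : Mat n) : ev (p ^ k) U = ev p U ^ k := by simp [ev]

theorem continuous_ev (p : PolyM n) : Continuous (ev p) := by
  unfold ev
  exact (MvPolynomial.continuous_eval p).comp (by fun_prop)

theorem measurable_ev (p : PolyM n) : Measurable (ev p) := (continuous_ev p).measurable

/-- Rotation by the angle `t` of the columns `i`, `j`. -/
noncomputable def rot (i j : Fin n) (t : ℝ) (U : Mat n) : Mat n := fun a b =>
  if b = j then Real.cos t * U a j + Real.sin t * U a i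
  else if b = i then Real.cos t * U a i - Real.sin t * U a j else U a b

theorem rot_zero (i j : Fin n) (U : Mat n) : rot i j 0 U = U := by
  funext a b
  unfold rot
  split_ifs with h1 h2 <;> simp [*]

theorem continuous_rot (i j : Fin n) (t : ℝ) : Continuous (rot i j t) := by
  unfold rot
  refine continuous_pi fun a => continuous_pi fun b => ?_
  split_ifs <;> fun_prop

theorem continuous_rot_joint (i j : Fin n) : Continuous (fun z : ℝ × Mat n => rot i j z.1 z.2) := by
  unfold rot
  refine continuous_pi fun a => continuous_pi fun b => ?_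
  split_ifs <;> fun_prop

theorem hasDerivAt_rot_entry (i j : Fin n) (hij : i ≠ j) (U : Mat n) (a b : Fin n) (t : ℝ) :
    HasDerivAt (fun t => rot i j t U a b) (ev (Xd i j (X (a, b))) (rot i j t U)) t := by
  rw [Xd_X, ev_sub]
  by_cases h1 : b = j
  · subst h1
    have hbi : ¬ (b = i) := fun h => hij h.symm
    rw [if_pos rfl, if_neg hbi, ev_X, ev_zero]
    have h3 : rot i b t U a i = Real.cos t * U a i - Real.sin t * U a b := by
      unfold rot; rw [if_neg hij, if_pos rfl]
    rw [h3]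
    have h4 : (fun t => rot i b t U a b) = fun t => Real.cos t * U a b + Real.sin t * U a i := by
      funext t; unfold rot; rw [if_pos rfl]
    rw [h4]
    have := ((Real.hasDerivAt_cos t).mul_const (U a b)).add
      ((Real.hasDerivAt_sin t).mul_const (U a i))
    exact this.congr_deriv (by ring)
  · by_cases h2 : b = i
    · subst h2
      rw [if_neg h1, if_pos rfl, ev_X, ev_zero]
      have h3 : rot b j t U a j = Real.cos t * U a j + Real.sin t * U a b := by
        unfold rot; rw [if_pos rfl]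
      rw [h3]
      have h4 : (fun t => rot b j t U a b) = fun t => Real.cos t * U a b - Real.sin t * U a j := by
        funext t; unfold rot; rw [if_neg h1, if_pos rfl]
      rw [h4]
      have := ((Real.hasDerivAt_cos t).mul_const (U a b)).sub
        ((Real.hasDerivAt_sin t).mul_const (U a j))
      exact this.congr_deriv (by ring)
    · rw [if_neg h1, if_neg h2, ev_zero]
      have h4 : (fun t => rot i j t U a b) = fun t => U a b := by
        funext t; unfold rot; rw [if_neg h1, if_neg h2]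
      rw [h4]
      simpa using hasDerivAt_const t (U a b)

theorem hasDerivAt_ev_rot (i j : Fin n) (hij : i ≠ j) (p : PolyM n) (U : Mat n) (t : ℝ) :
    HasDerivAt (fun t => ev p (rot i j t U)) (ev (Xd i j p) (rot i j t U)) t := by
  induction p using MvPolynomial.induction_on with
  | C c =>
    have h1 : (fun t => ev (C c) (rot i j t U)) = fun _ => c := by funext t; rw [ev_C]
    rw [h1]
    have h2 : Xd i j (C c : PolyM n) = 0 := MvPolynomial.derivation_C _ _
    rw [h2, ev_zero]
    exact hasDerivAt_const t c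
  | add p q hp hq =>
    have h1 : (fun t => ev (p + q) (rot i j t U)) =
        fun t => ev p (rot i j t U) + ev q (rot i j t U) := by funext t; rw [ev_add]
    rw [h1, map_add, ev_add]
    exact hp.add hq
  | mul_X p ab hp =>
    obtain ⟨a, b⟩ := ab
    have h1 : (fun t => ev (p * X (a, b)) (rot i j t U)) =
        fun t => ev p (rot i j t U) * rot i j t U a b := by funext t; rw [ev_mul, ev_X]
    rw [h1, Derivation.leibniz, ev_add, smul_eq_mul, smul_eq_mul, ev_mul, ev_mul, ev_X]
    have := hp.mul (hasDerivAt_rot_entry i j hij U a b t)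
    exact this.congr_deriv (by ring)

/-- The hypotheses on the law used for integration by parts: bounded entries and invariance under
the rotations of two columns. -/
structure RotInv (μ : Measure (Mat n)) : Prop where
  bdd : ∀ᵐ U ∂μ, ∀ a b, |U a b| ≤ 1
  inv : ∀ (i j : Fin n), i ≠ j → ∀ t : ℝ, μ.map (rot i j t) = μ

theorem abs_rot_le (i j : Fin n) (t : ℝ) (U : Mat n) (c : ℝ) (hU : ∀ a b, |U a b| ≤ c)
    (a b : Fin n) : |rot i j t U a b| ≤ 2 * c := by
  have hc : 0 ≤ c := (abs_nonneg _).trans (hU a b)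
  have h1 := Real.abs_cos_le_one t
  have h2 := Real.abs_sin_le_one t
  unfold rot
  split_ifs
  · calc |Real.cos t * U a j + Real.sin t * U a i| ≤ |Real.cos t| * |U a j| + |Real.sin t| * |U a i| := by
          rw [← abs_mul, ← abs_mul]; exact abs_add_le _ _
      _ ≤ 1 * c + 1 * c := by gcongr <;> apply hU
      _ = 2 * c := by ring
  · calc |Real.cos t * U a i - Real.sin t * U a j| ≤ |Real.cos t| * |U a i| + |Real.sin t| * |U a j| := by
          rw [← abs_mul, ← abs_mul]; exact abs_sub _ _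
      _ ≤ 1 * c + 1 * c := by gcongr <;> apply hU
      _ = 2 * c := by ring
  · linarith [hU a b]

/-- polynomials are bounded on bounded sets of matrices -/
theorem exists_bound_ev (p : PolyM n) (c : ℝ) :
    ∃ K : ℝ, 0 ≤ K ∧ ∀ U : Mat n, (∀ a b, |U a b| ≤ c) → |ev p U| ≤ K := by
  have hcomp : IsCompact (Set.univ.pi fun _ : Fin n => Set.univ.pi fun _ : Fin n => Set.Icc (-c) c) :=
    isCompact_univ_pi fun _ => isCompact_univ_pi fun _ => isCompact_Icc
  obtain ⟨K, hK⟩ := hcomp.exists_bound_of_continuousOn (continuous_ev p).continuousOn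
  refine ⟨max K 0, le_max_right _ _, fun U hU => ?_⟩
  have := hK U (by
    intro a _ b _
    exact abs_le.mp (hU a b))
  rw [Real.norm_eq_abs] at this
  exact this.trans (le_max_left _ _)

variable {μ : Measure (Mat n)} [IsProbabilityMeasure μ]

theorem integrable_ev (hμ : ∀ᵐ U ∂μ, ∀ a b, |U a b| ≤ 1) (p : PolyM n) :
    Integrable (ev p) μ := by
  obtain ⟨K, hK0, hK⟩ := exists_bound_ev p 1
  refine Integrable.of_bound (measurable_ev p).aestronglyMeasurable K ?_
  filter_upwards [hμ] with U hU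
  rw [Real.norm_eq_abs]
  exact hK U hU

/-- integration by parts: the integral of a derivative vanishes -/
theorem integral_Xd (hμ : RotInv μ) (i j : Fin n) (p : PolyM n) :
    ∫ U, ev (Xd i j p) U ∂μ = 0 := by
  by_cases hij : i = j
  · subst hij
    have : Xd i i p = 0 := by rw [Xd_self]; rfl
    rw [this]
    simp [ev_zero]
  obtain ⟨K, hK0, hK⟩ := exists_bound_ev (Xd i j p) 2
  have hder : HasDerivAt (fun t => ∫ U, ev p (rot i j t U) ∂μ)
      (∫ U, ev (Xd i j p) (rot i j 0 U) ∂μ) 0 := by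
    have := hasDerivAt_integral_of_dominated_loc_of_deriv_le (μ := μ) (𝕜 := ℝ)
      (F := fun t U => ev p (rot i j t U)) (F' := fun t U => ev (Xd i j p) (rot i j t U))
      (x₀ := 0) (bound := fun _ => K) (s := Set.univ) (Filter.univ_mem)
      (by
        filter_upwards with t
        exact ((continuous_ev p).comp (continuous_rot i j t)).aestronglyMeasurable)
      (by
        have h0 : (fun U => ev p (rot i j 0 U)) = ev p := by funext U; rw [rot_zero]
        simp only [h0]
        exact integrable_ev hμ.bdd p)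
      (((continuous_ev _).comp (continuous_rot i j 0)).aestronglyMeasurable)
      (by
        filter_upwards [hμ.bdd] with U hU t _
        rw [Real.norm_eq_abs]
        exact hK _ fun a b => by simpa using abs_rot_le i j t U 1 hU a b)
      (integrable_const K)
      (by
        filter_upwards with U t _
        exact hasDerivAt_ev_rot i j hij p U t)
    exact this.2
  have hconst : (fun t => ∫ U, ev p (rot i j t U) ∂μ) = fun _ => ∫ U, ev p U ∂μ := by
    funext t
    have h1 := hμ.inv i j hij t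
    have h2 : ∫ U, ev p U ∂(μ.map (rot i j t)) = ∫ U, ev p (rot i j t U) ∂μ :=
      integral_map (continuous_rot i j t).measurable.aemeasurable
        (continuous_ev p).aestronglyMeasurable
    rw [← h2, h1]
  rw [hconst] at hder
  have h0 := hder.unique (hasDerivAt_const (0 : ℝ) (∫ U, ev p U ∂μ))
  simpa [rot_zero] using h0

theorem integral_Xd_mul (hμ : RotInv μ) (i j : Fin n) (p q : PolyM n) :
    ∫ U, ev (Xd i j p) U * ev q U ∂μ = - ∫ U, ev p U * ev (Xd i j q) U ∂μ := by
  have h := integral_Xd hμ i j (p * q)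
  have h1 : ∀ U, ev (Xd i j (p * q)) U = ev p U * ev (Xd i j q) U + ev (Xd i j p) U * ev q U := by
    intro U
    rw [Derivation.leibniz, ev_add, smul_eq_mul, smul_eq_mul, ev_mul, ev_mul]
    ring
  simp only [h1] at h
  rw [integral_add] at h
  · linarith
  · simpa only [← ev_mul] using integrable_ev hμ.bdd (p * Xd i j q)
  · simpa only [← ev_mul] using integrable_ev hμ.bdd (Xd i j p * q)

/-- the bilinear form `∫ p q dμ` on polynomials -/
noncomputable def Bf (μ : Measure (Mat n)) [IsProbabilityMeasure μ]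
    (hμ : ∀ᵐ U ∂μ, ∀ a b, |U a b| ≤ 1) : LinearMap.BilinForm ℝ (PolyM n) :=
  LinearMap.mk₂ ℝ (fun p q => ∫ U, ev p U * ev q U ∂μ)
    (by
      intro p q r
      simp only [ev_add, add_mul]
      rw [integral_add] <;> simpa only [← ev_mul] using integrable_ev hμ _)
    (by
      intro c p q
      simp only [ev_smul, smul_eq_mul]
      rw [← integral_const_mul]
      congr 1; funext U; ring)
    (by
      intro p q r
      simp only [ev_add, mul_add]
      rw [integral_add] <;> simpa only [← ev_mul] using integrable_ev hμ _)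
    (by
      intro c p q
      simp only [ev_smul, smul_eq_mul]
      rw [← integral_const_mul]
      congr 1; funext U; ring)

theorem Bf_apply (hμ : ∀ᵐ U ∂μ, ∀ a b, |U a b| ≤ 1) (p q : PolyM n) :
    Bf μ hμ p q = ∫ U, ev p U * ev q U ∂μ := rfl

/-- energy (sum over ordered pairs of the squared derivatives) -/
noncomputable def Gam (p : PolyM n) (U : Mat n) : ℝ :=
  ∑ i : Fin n, ∑ j : Fin n, (ev (Xd i j p) U) ^ 2

theorem Bf_Xd (hμ : RotInv μ) (i j : Fin n) (p q : PolyM n) :
    Bf μ hμ.bdd (Xd i j p) q = - Bf μ hμ.bdd p (Xd i j q) := integral_Xd_mul hμ i j p q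

theorem Bf_symm (hμ : ∀ᵐ U ∂μ, ∀ a b, |U a b| ≤ 1) (p q : PolyM n) :
    Bf μ hμ p q = Bf μ hμ q p := by
  rw [Bf_apply, Bf_apply]; congr 1; funext U; ring

theorem Bf_self_nonneg (hμ : ∀ᵐ U ∂μ, ∀ a b, |U a b| ≤ 1) (p : PolyM n) : 0 ≤ Bf μ hμ p p := by
  rw [Bf_apply]
  exact integral_nonneg fun U => mul_self_nonneg _

theorem Bf_Cas (hμ : RotInv μ) (p q : PolyM n) :
    Bf μ hμ.bdd (Cas p) q = - ∑ i : Fin n, ∑ j : Fin n, Bf μ hμ.bdd (Xd i j p) (Xd i j q) := by
  rw [Cas_apply]
  simp only [map_sum, LinearMap.sum_apply, Bf_Xd hμ _ _ (Xd _ _ p) q, Finset.sum_neg_distrib]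

theorem Bf_Cas_symm (hμ : RotInv μ) (p q : PolyM n) :
    Bf μ hμ.bdd (Cas p) q = Bf μ hμ.bdd p (Cas q) := by
  rw [Bf_symm hμ.bdd p, Bf_Cas hμ, Bf_Cas hμ]
  congr 1
  refine Finset.sum_congr rfl fun i _ => Finset.sum_congr rfl fun j _ => ?_
  exact Bf_symm _ _ _

/-- sum of the squared commutators -/
theorem comm_sum (p : PolyM n) (U : Mat n) :
    ∑ i : Fin n, ∑ j : Fin n, ∑ k : Fin n, ∑ l : Fin n,
      (ev (Xd i j (Xd k l p)) U - ev (Xd k l (Xd i j p)) U) ^ 2 = 4 * ((n : ℝ) - 2) * Gam p U := by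
  set y : Fin n → Fin n → ℝ := fun i j => ev (Xd i j p) U with hy
  have hskew : ∀ i j, y j i = - y i j := by
    intro i j
    simp only [hy]
    rw [Xd_swap_apply, ev_neg]
  have hdiag : ∀ i, y i i = 0 := by
    intro i
    have := hskew i i
    linarith
  have h1 : ∀ i j k l, ev (Xd i j (Xd k l p)) U - ev (Xd k l (Xd i j p)) U =
      dl j k * y i l - dl j l * y i k - dl i k * y j l + dl i l * y j k := by
    intro i j k l
    rw [← ev_sub, Xd_comm]
    simp only [ev_add, ev_sub, ev_smul, hy]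
  simp only [h1]
  have hdl : ∀ a b : Fin n, dl a b * dl a b = dl a b := by
    intro a b; unfold dl; split_ifs <;> simp
  have hexp : ∀ i j k l : Fin n,
      (dl j k * y i l - dl j l * y i k - dl i k * y j l + dl i l * y j k) ^ 2 =
      (dl j k * (y i l) ^ 2 + dl j l * (y i k) ^ 2 + dl i k * (y j l) ^ 2 + dl i l * (y j k) ^ 2)
      + (-(2 * (dl j k * (dl j l * (y i l * y i k)))) - 2 * (dl j k * (dl i k * (y i l * y j l)))
        + 2 * (dl j k * (dl i l * (y i l * y j k))) + 2 * (dl j l * (dl i k * (y i k * y j l)))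
        - 2 * (dl j l * (dl i l * (y i k * y j k))) - 2 * (dl i k * (dl i l * (y j l * y j k)))) := by
    intro i j k l
    linear_combination (y i l) ^ 2 * hdl j k + (y i k) ^ 2 * hdl j l + (y j l) ^ 2 * hdl i k
      + (y j k) ^ 2 * hdl i l
  simp only [hexp]
  have hS : Gam p U = ∑ i, ∑ j, (y i j) ^ 2 := rfl
  have sdl : ∀ (a : Fin n) (f : Fin n → ℝ), ∑ b, dl a b * f b = f a := by
    intro a f; simp [dl]
  have sdl' : ∀ (a : Fin n) (f : Fin n → ℝ), ∑ b, dl b a * f b = f a := by
    intro a f; simp [dl]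
  simp only [Finset.sum_add_distrib, Finset.sum_sub_distrib, Finset.sum_neg_distrib,
    ← Finset.mul_sum]
  -- the ten sums
  have t1 : ∑ i : Fin n, ∑ j : Fin n, ∑ k : Fin n, dl j k * ∑ l : Fin n, (y i l) ^ 2
      = n * ∑ i, ∑ j, (y i j) ^ 2 := by
    simp only [sdl]
    simp only [Finset.sum_const, Finset.card_univ, Fintype.card_fin, nsmul_eq_mul, ← Finset.mul_sum]
  have t2 : ∑ i : Fin n, ∑ j : Fin n, ∑ k : Fin n, ∑ l : Fin n, dl j l * (y i k) ^ 2
      = n * ∑ i, ∑ j, (y i j) ^ 2 := by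
    have : ∀ i j k : Fin n, ∑ l : Fin n, dl j l * (y i k) ^ 2 = (y i k) ^ 2 := by
      intro i j k; rw [sdl j (fun _ => (y i k) ^ 2)]
    simp only [this]
    simp only [Finset.sum_const, Finset.card_univ, Fintype.card_fin, nsmul_eq_mul, ← Finset.mul_sum]
  have t3 : ∑ i : Fin n, ∑ j : Fin n, ∑ k : Fin n, dl i k * ∑ l : Fin n, (y j l) ^ 2
      = n * ∑ i, ∑ j, (y i j) ^ 2 := by
    simp only [sdl]
    simp only [Finset.sum_const, Finset.card_univ, Fintype.card_fin, nsmul_eq_mul]
  have t4 : ∑ i : Fin n, ∑ j : Fin n, ∑ k : Fin n, ∑ l : Fin n, dl i l * (y j k) ^ 2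
      = n * ∑ i, ∑ j, (y i j) ^ 2 := by
    have : ∀ i j k : Fin n, ∑ l : Fin n, dl i l * (y j k) ^ 2 = (y j k) ^ 2 := by
      intro i j k; rw [sdl i (fun _ => (y j k) ^ 2)]
    simp only [this]
    simp only [Finset.sum_const, Finset.card_univ, Fintype.card_fin, nsmul_eq_mul]
  have t5 : ∑ i : Fin n, ∑ j : Fin n, ∑ k : Fin n, dl j k * ∑ l : Fin n, dl j l * (y i l * y i k)
      = ∑ i, ∑ j, (y i j) ^ 2 := by
    refine Finset.sum_congr rfl fun i _ => Finset.sum_congr rfl fun j _ => ?_
    have : ∀ k : Fin n, ∑ l : Fin n, dl j l * (y i l * y i k) = y i j * y i k := by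
      intro k; rw [sdl j (fun l => y i l * y i k)]
    simp only [this]
    rw [sdl j (fun k => y i j * y i k)]; ring
  have t6 : ∑ i : Fin n, ∑ j : Fin n, ∑ k : Fin n, dl j k * (dl i k * ∑ l : Fin n, y i l * y j l)
      = ∑ i, ∑ j, (y i j) ^ 2 := by
    refine Finset.sum_congr rfl fun i _ => ?_
    have h : ∀ j : Fin n, ∑ k : Fin n, dl j k * (dl i k * ∑ l : Fin n, y i l * y j l) =
        dl i j * ∑ l : Fin n, y i l * y j l := by
      intro j; rw [sdl j (fun k => dl i k * ∑ l : Fin n, y i l * y j l)]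
    simp only [h]
    rw [sdl i (fun j => ∑ l : Fin n, y i l * y j l)]
    refine Finset.sum_congr rfl fun l _ => by ring
  have t7 : ∑ i : Fin n, ∑ j : Fin n, ∑ k : Fin n, dl j k * ∑ l : Fin n, dl i l * (y i l * y j k)
      = 0 := by
    refine Finset.sum_eq_zero fun i _ => Finset.sum_eq_zero fun j _ => Finset.sum_eq_zero fun k _ => ?_
    rw [sdl i (fun l => y i l * y j k), hdiag]; ring
  have t8 : ∑ i : Fin n, ∑ j : Fin n, ∑ k : Fin n, ∑ l : Fin n, dl j l * (dl i k * (y i k * y j l))
      = 0 := by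
    refine Finset.sum_eq_zero fun i _ => Finset.sum_eq_zero fun j _ => Finset.sum_eq_zero fun k _ => ?_
    rw [sdl j (fun l => dl i k * (y i k * y j l)), hdiag]; ring
  have t9 : ∑ i : Fin n, ∑ j : Fin n, ∑ k : Fin n, ∑ l : Fin n, dl j l * (dl i l * (y i k * y j k))
      = ∑ i, ∑ j, (y i j) ^ 2 := by
    refine Finset.sum_congr rfl fun i _ => ?_
    have h : ∀ j k : Fin n, ∑ l : Fin n, dl j l * (dl i l * (y i k * y j k)) =
        dl i j * (y i k * y j k) := by
      intro j k; rw [sdl j (fun l => dl i l * (y i k * y j k))]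
    simp only [h, ← Finset.mul_sum]
    rw [sdl i (fun j => ∑ k : Fin n, y i k * y j k)]
    refine Finset.sum_congr rfl fun l _ => by ring
  have t10 : ∑ i : Fin n, ∑ j : Fin n, ∑ k : Fin n, dl i k * ∑ l : Fin n, dl i l * (y j l * y j k)
      = ∑ i, ∑ j, (y i j) ^ 2 := by
    have h : ∀ i j : Fin n, ∑ k : Fin n, dl i k * ∑ l : Fin n, dl i l * (y j l * y j k) =
        (y j i) ^ 2 := by
      intro i j
      have : ∀ k : Fin n, ∑ l : Fin n, dl i l * (y j l * y j k) = y j i * y j k := by
        intro k; rw [sdl i (fun l => y j l * y j k)]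
      simp only [this]
      rw [sdl i (fun k => y j i * y j k)]; ring
    simp only [h]
    rw [Finset.sum_comm]
  rw [t1, t2, t3, t4, t5, t6, t7, t8, t9, t10, hS]
  ring

end Crest.Agent.Lib.OrthPoinc
end

-- ▼ part Lib/OrthPoinc/Poly
section

set_option autoImplicit false

/-!
The Bochner inequality and the spectral gap for polynomials, up to a zero-energy polynomial.
-/

namespace Crest.Agent.Lib.OrthPoinc

open MvPolynomial MeasureTheory

variable {n : ℕ} {μ : Measure (Mat n)} [IsProbabilityMeasure μ]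

theorem integrable_ev_sq (hμ : ∀ᵐ U ∂μ, ∀ a b, |U a b| ≤ 1) (p : PolyM n) :
    Integrable (fun U => (ev p U) ^ 2) μ :=
  (integrable_ev hμ (p ^ 2)).congr (Filter.Eventually.of_forall fun U => ev_pow p 2 U)

theorem integral_Gam (hμ : RotInv μ) (p : PolyM n) :
    ∫ U, Gam p U ∂μ = ∑ i : Fin n, ∑ j : Fin n, Bf μ hμ.bdd (Xd i j p) (Xd i j p) := by
  unfold Gam
  have hi : ∀ i j : Fin n, Integrable (fun U => (ev (Xd i j p) U) ^ 2) μ := by
    intro i j
    exact integrable_ev_sq hμ.bdd (Xd i j p)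
  rw [integral_finsetSum _ (fun i _ => integrable_finsetSum _ fun j _ => hi i j)]
  refine Finset.sum_congr rfl fun i _ => ?_
  rw [integral_finsetSum _ (fun j _ => hi i j)]
  refine Finset.sum_congr rfl fun j _ => ?_
  rw [Bf_apply]
  congr 1; funext U; ring

theorem Bf_Cas_self (hμ : RotInv μ) (p : PolyM n) :
    Bf μ hμ.bdd (Cas p) p = - ∫ U, Gam p U ∂μ := by
  rw [Bf_Cas hμ, integral_Gam hμ]

theorem integral_Gam_nonneg (p : PolyM n) : 0 ≤ ∫ U, Gam p U ∂μ :=
  integral_nonneg fun U => Finset.sum_nonneg fun i _ => Finset.sum_nonneg fun j _ => sq_nonneg _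

theorem bochner (hμ : RotInv μ) (p : PolyM n) :
    ((n : ℝ) - 2) * ∫ U, Gam p U ∂μ ≤ Bf μ hμ.bdd (Cas p) (Cas p) := by
  have hX : ∀ i j : Fin n, Integrable (fun U => (ev (Xd i j p) U) ^ 2) μ := by
    intro i j
    exact integrable_ev_sq hμ.bdd (Xd i j p)
  have hXX : ∀ i j k l : Fin n, Integrable (fun U => (ev (Xd i j (Xd k l p)) U) ^ 2) μ := by
    intro i j k l
    exact integrable_ev_sq hμ.bdd (Xd i j (Xd k l p))
  have h1 : Bf μ hμ.bdd (Cas p) (Cas p) =
      ∑ i : Fin n, ∑ j : Fin n, ∑ k : Fin n, ∑ l : Fin n,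
        ∫ U, (ev (Xd k l (Xd i j p)) U) ^ 2 ∂μ := by
    rw [Bf_Cas hμ, ← Finset.sum_neg_distrib]
    refine Finset.sum_congr rfl fun i _ => ?_
    rw [← Finset.sum_neg_distrib]
    refine Finset.sum_congr rfl fun j _ => ?_
    rw [← Cas_comm, Bf_symm hμ.bdd, Bf_Cas hμ, neg_neg]
    refine Finset.sum_congr rfl fun k _ => Finset.sum_congr rfl fun l _ => ?_
    rw [Bf_apply]
    congr 1; funext U; ring
  have h2 : Bf μ hμ.bdd (Cas p) (Cas p) =
      ∑ i : Fin n, ∑ j : Fin n, ∑ k : Fin n, ∑ l : Fin n,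
        ∫ U, (ev (Xd i j (Xd k l p)) U) ^ 2 ∂μ := by
    rw [h1]
    have e : ∀ f : Fin n → Fin n → Fin n → Fin n → ℝ,
        ∑ i : Fin n, ∑ j : Fin n, ∑ k : Fin n, ∑ l : Fin n, f k l i j =
        ∑ i : Fin n, ∑ j : Fin n, ∑ k : Fin n, ∑ l : Fin n, f i j k l := by
      intro f
      calc ∑ i : Fin n, ∑ j : Fin n, ∑ k : Fin n, ∑ l : Fin n, f k l i j
          = ∑ i : Fin n, ∑ k : Fin n, ∑ j : Fin n, ∑ l : Fin n, f k l i j := by
            refine Finset.sum_congr rfl fun i _ => Finset.sum_comm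
        _ = ∑ k : Fin n, ∑ i : Fin n, ∑ j : Fin n, ∑ l : Fin n, f k l i j := Finset.sum_comm
        _ = ∑ k : Fin n, ∑ l : Fin n, ∑ i : Fin n, ∑ j : Fin n, f k l i j := by
            refine Finset.sum_congr rfl fun k _ => ?_
            calc ∑ i : Fin n, ∑ j : Fin n, ∑ l : Fin n, f k l i j
                = ∑ i : Fin n, ∑ l : Fin n, ∑ j : Fin n, f k l i j :=
                  Finset.sum_congr rfl fun i _ => Finset.sum_comm
              _ = ∑ l : Fin n, ∑ i : Fin n, ∑ j : Fin n, f k l i j := Finset.sum_comm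
    exact e (fun i j k l => ∫ U, (ev (Xd i j (Xd k l p)) U) ^ 2 ∂μ)
  have h3 : ((n : ℝ) - 2) * ∫ U, Gam p U ∂μ =
      ∑ i : Fin n, ∑ j : Fin n, ∑ k : Fin n, ∑ l : Fin n,
      ∫ U, (1 / 4) * (ev (Xd i j (Xd k l p)) U - ev (Xd k l (Xd i j p)) U) ^ 2 ∂μ := by
    have hint : ∀ i j k l : Fin n, Integrable
        (fun U => (1 / 4 : ℝ) * (ev (Xd i j (Xd k l p)) U - ev (Xd k l (Xd i j p)) U) ^ 2) μ := by
      intro i j k l
      have := (integrable_ev hμ.bdd ((Xd i j (Xd k l p) - Xd k l (Xd i j p)) ^ 2)).const_mul (1 / 4)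
      simpa only [ev_pow, ev_sub] using this
    have e1 : ∑ i : Fin n, ∑ j : Fin n, ∑ k : Fin n, ∑ l : Fin n,
        ∫ U, (1 / 4) * (ev (Xd i j (Xd k l p)) U - ev (Xd k l (Xd i j p)) U) ^ 2 ∂μ =
        ∫ U, ∑ i : Fin n, ∑ j : Fin n, ∑ k : Fin n, ∑ l : Fin n,
        (1 / 4) * (ev (Xd i j (Xd k l p)) U - ev (Xd k l (Xd i j p)) U) ^ 2 ∂μ := by
      rw [integral_finsetSum]
      · refine Finset.sum_congr rfl fun i _ => ?_
        rw [integral_finsetSum]
        · refine Finset.sum_congr rfl fun j _ => ?_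
          rw [integral_finsetSum]
          · refine Finset.sum_congr rfl fun k _ => ?_
            rw [integral_finsetSum]
            intro l _
            exact hint i j k l
          · intro k _
            exact integrable_finsetSum _ fun l _ => hint i j k l
        · intro j _
          exact integrable_finsetSum _ fun k _ => integrable_finsetSum _ fun l _ => hint i j k l
      · intro i _
        exact integrable_finsetSum _ fun j _ => integrable_finsetSum _ fun k _ =>
          integrable_finsetSum _ fun l _ => hint i j k l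
    rw [e1, ← integral_const_mul]
    congr 1
    funext U
    have := comm_sum p U
    simp only [← Finset.mul_sum]
    rw [this]
    ring
  have h4 : ((n : ℝ) - 2) * ∫ U, Gam p U ∂μ ≤
      ∑ i : Fin n, ∑ j : Fin n, ∑ k : Fin n, ∑ l : Fin n,
      ((1 / 2) * ∫ U, (ev (Xd i j (Xd k l p)) U) ^ 2 ∂μ +
        (1 / 2) * ∫ U, (ev (Xd k l (Xd i j p)) U) ^ 2 ∂μ) := by
    rw [h3]
    refine Finset.sum_le_sum fun i _ => Finset.sum_le_sum fun j _ => Finset.sum_le_sum fun k _ =>
      Finset.sum_le_sum fun l _ => ?_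
    rw [← integral_const_mul, ← integral_const_mul, ← integral_add ((hXX i j k l).const_mul _)
      ((hXX k l i j).const_mul _)]
    refine integral_mono ?_ ?_ ?_
    · have := (integrable_ev hμ.bdd ((Xd i j (Xd k l p) - Xd k l (Xd i j p)) ^ 2)).const_mul (1 / 4)
      simpa only [ev_pow, ev_sub] using this
    · exact ((hXX i j k l).const_mul _).add ((hXX k l i j).const_mul _)
    · intro U
      simp only
      nlinarith [sq_nonneg (ev (Xd i j (Xd k l p)) U + ev (Xd k l (Xd i j p)) U)]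
  refine h4.trans (le_of_eq ?_)
  simp only [Finset.sum_add_distrib, ← Finset.mul_sum]
  rw [← h2, ← h1]
  ring

/-- Spectral gap for polynomials, up to a zero energy polynomial. -/
theorem poly_gap (hμ : RotInv μ) (hn : 2 < n) (p : PolyM n) :
    ∃ f0 : PolyM n, (∀ i j, ∀ᵐ U ∂μ, ev (Xd i j f0) U = 0) ∧
      ((n : ℝ) - 2) * ∫ U, (ev p U - ev f0 U) ^ 2 ∂μ ≤ ∫ U, Gam p U ∂μ := by
  set d := p.totalDegree with hd
  set V := restrictTotalDegree (Fin n × Fin n) ℝ d with hV
  have hmemV : ∀ q : PolyM n, q ∈ V ↔ q.totalDegree ≤ d := fun q =>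
    mem_restrictTotalDegree _ _ _
  have hCasV : ∀ q ∈ V, (-(Cas (n := n))) q ∈ V := by
    intro q hq
    rw [LinearMap.neg_apply, Cas_apply]
    refine V.neg_mem (V.sum_mem fun i _ => V.sum_mem fun j _ => ?_)
    rw [hmemV] at hq ⊢
    exact Xd_totalDegree_le i j _ d (Xd_totalDegree_le i j q d hq)
  set T : V →ₗ[ℝ] V := (-(Cas (n := n))).restrict hCasV with hTdef
  set B : LinearMap.BilinForm ℝ V := (Bf μ hμ.bdd).comp V.subtype V.subtype with hBdef
  have hB : ∀ x y : V, B x y = Bf μ hμ.bdd (x : PolyM n) (y : PolyM n) := fun x y => by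
    simp [hBdef]
  have hTv : ∀ x : V, ((T x : V) : PolyM n) = - Cas (x : PolyM n) := fun x => by
    simp [hTdef]
  have hTx : ∀ x : V, B (T x) x = ∫ U, Gam (x : PolyM n) U ∂μ := by
    intro x
    rw [hB, hTv, map_neg, LinearMap.neg_apply, Bf_Cas_self hμ, neg_neg]
  have hn' : (0 : ℝ) < (n : ℝ) - 2 := by
    have : (2 : ℝ) < n := by exact_mod_cast hn
    linarith
  obtain ⟨f0, hf0, hle⟩ := gap_of_sq B (fun x y => by rw [hB, hB]; exact Bf_symm _ _ _)
    (fun x => by rw [hB]; exact Bf_self_nonneg _ _) T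
    (fun x y => by
      rw [hB, hB, hTv, hTv, map_neg, map_neg, LinearMap.neg_apply, Bf_Cas_symm hμ])
    (fun x => by rw [hTx]; exact integral_Gam_nonneg _) ((n : ℝ) - 2) hn'
    (fun x => by
      rw [hTx, hB, hTv, map_neg, map_neg, LinearMap.neg_apply, neg_neg]
      exact bochner hμ _) ⟨p, by rw [hmemV]⟩
  refine ⟨(f0 : PolyM n), ?_, ?_⟩
  · rw [hTx, integral_Gam hμ] at hf0
    have hnn : ∀ i j : Fin n, 0 ≤ Bf μ hμ.bdd (Xd i j (f0 : PolyM n)) (Xd i j (f0 : PolyM n)) :=
      fun i j => Bf_self_nonneg _ _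
    intro i j
    have h1 : Bf μ hμ.bdd (Xd i j (f0 : PolyM n)) (Xd i j (f0 : PolyM n)) = 0 := by
      have h2 := (Finset.sum_eq_zero_iff_of_nonneg (fun i _ =>
        Finset.sum_nonneg fun j _ => hnn i j)).mp hf0 i (Finset.mem_univ _)
      exact (Finset.sum_eq_zero_iff_of_nonneg (fun j _ => hnn i j)).mp h2 j (Finset.mem_univ _)
    rw [Bf_apply] at h1
    have h3 : (fun U => ev (Xd i j (f0 : PolyM n)) U * ev (Xd i j (f0 : PolyM n)) U) =ᵐ[μ] 0 := by
      rw [← integral_eq_zero_iff_of_nonneg]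
      · exact h1
      · intro U; exact mul_self_nonneg _
      · simpa only [← ev_mul] using integrable_ev hμ.bdd (Xd i j (f0 : PolyM n) * Xd i j (f0 : PolyM n))
    filter_upwards [h3] with U hU
    simpa using hU
  · rw [hTx] at hle
    have h1 : B (⟨p, by rw [hmemV]⟩ - f0) (⟨p, by rw [hmemV]⟩ - f0) =
        ∫ U, (ev p U - ev (f0 : PolyM n) U) ^ 2 ∂μ := by
      rw [hB, Bf_apply]
      congr 1; funext U
      rw [Submodule.coe_sub, ev_sub]
      ring
    rw [h1] at hle
    exact hle

end Crest.Agent.Lib.OrthPoinc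
end

-- ▼ part Lib/OrthPoinc/Gen
section

set_option autoImplicit false

/-!
The special orthogonal group is generated by rotations in coordinate planes.
-/

namespace Crest.Agent.Lib.OrthPoinc

open Matrix

variable {n : ℕ}

/-- right multiplication -/
noncomputable def rmul (V : Matrix (Fin n) (Fin n) ℝ) (U : Mat n) : Mat n :=
  fun i j => (Matrix.of U * V) i j

theorem rmul_apply (V : Matrix (Fin n) (Fin n) ℝ) (U : Mat n) (i j : Fin n) :
    rmul V U i j = ∑ k, U i k * V k j := by simp [rmul, Matrix.mul_apply]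

theorem rmul_rmul (V W : Matrix (Fin n) (Fin n) ℝ) (U : Mat n) :
    rmul W (rmul V U) = rmul (V * W) U := by
  funext i j
  have : (Matrix.of (rmul V U)) = Matrix.of U * V := by ext; rfl
  simp only [rmul] at *
  rw [this, Matrix.mul_assoc]

theorem rmul_one (U : Mat n) : rmul 1 U = U := by
  funext i j; simp [rmul]

/-- The coordinate rotation matrix. -/
noncomputable def Rm (i j : Fin n) (t : ℝ) : Matrix (Fin n) (Fin n) ℝ :=
  Matrix.of (rot i j t (fun a b => if a = b then 1 else 0))

theorem Rm_apply (i j : Fin n) (t : ℝ) (a b : Fin n) :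
    Rm i j t a b = if b = j then Real.cos t * (if a = j then 1 else 0) +
      Real.sin t * (if a = i then 1 else 0)
    else if b = i then Real.cos t * (if a = i then 1 else 0) - Real.sin t * (if a = j then 1 else 0)
    else if a = b then 1 else 0 := rfl

theorem rot_eq_rmul (i j : Fin n) (t : ℝ) (U : Mat n) : rot i j t U = rmul (Rm i j t) U := by
  funext a b
  rw [rmul_apply]
  simp only [Rm_apply]
  unfold rot
  split_ifs with h1 h2
  · simp [mul_add, Finset.sum_add_distrib, mul_comm]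
  · simp [mul_sub, Finset.sum_sub_distrib, mul_comm]
  · simp

theorem rot_rot (i j : Fin n) (hij : i ≠ j) (s t : ℝ) (U : Mat n) :
    rot i j s (rot i j t U) = rot i j (s + t) U := by
  funext a b
  unfold rot
  by_cases h1 : b = j
  · simp only [h1, if_true, if_neg hij, if_pos]
    rw [Real.cos_add, Real.sin_add]; ring
  · by_cases h2 : b = i
    · simp only [h2, if_true, if_neg hij, if_pos]
      rw [Real.cos_add, Real.sin_add]; ring
    · simp [h1, h2]

theorem Rm_mul (i j : Fin n) (hij : i ≠ j) (s t : ℝ) : Rm i j t * Rm i j s = Rm i j (s + t) := by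
  have h := rot_rot i j hij s t (fun a b => if a = b then 1 else 0)
  rw [rot_eq_rmul, rot_eq_rmul, rmul_rmul, rot_eq_rmul] at h
  have h1 : ∀ V : Matrix (Fin n) (Fin n) ℝ, (Matrix.of (rmul V (fun a b => if a = b then 1 else 0))) = V := by
    intro V
    ext a b
    simp [rmul_apply]
  rw [← h1 (Rm i j t * Rm i j s), h, h1]

theorem Rm_zero (i j : Fin n) : Rm i j 0 = 1 := by
  ext a b
  have := congrFun (congrFun (rot_zero i j (fun a b : Fin n => if a = b then (1 : ℝ) else 0)) a) b
  simp only [Rm, Matrix.of_apply, this, Matrix.one_apply]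

theorem Rm_transpose (i j : Fin n) (hij : i ≠ j) (t : ℝ) : (Rm i j t)ᵀ = Rm i j (-t) := by
  ext a b
  rw [Matrix.transpose_apply, Rm_apply, Rm_apply, Real.cos_neg, Real.sin_neg]
  have hji : j ≠ i := hij.symm
  by_cases ha : a = j
  · subst ha
    by_cases hb : b = a
    · subst hb; simp [hji]
    · by_cases hb2 : b = i
      · subst hb2; simp [hb, hji]
      · simp [hb, hb2, Ne.symm hb]
  · by_cases ha2 : a = i
    · subst ha2
      by_cases hb : b = j
      · subst hb; simp [hij, hji]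
      · by_cases hb2 : b = a
        · subst hb2; simp [hij]
        · simp [hb, hb2, hij, Ne.symm hb2]
    · by_cases hb : b = j
      · subst hb; simp [ha, ha2, Ne.symm ha]
      · by_cases hb2 : b = i
        · subst hb2; simp [ha, ha2, Ne.symm ha2, hb]
        · simp [ha, ha2, hb, hb2, eq_comm]

theorem Rm_orth (i j : Fin n) (hij : i ≠ j) (t : ℝ) : (Rm i j t)ᵀ * Rm i j t = 1 := by
  rw [Rm_transpose i j hij, Rm_mul i j hij, add_neg_cancel, Rm_zero]

theorem Rm_mem_orth (i j : Fin n) (hij : i ≠ j) (t : ℝ) :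
    Rm i j t ∈ Matrix.orthogonalGroup (Fin n) ℝ := by
  rw [Matrix.mem_orthogonalGroup_iff']
  exact Rm_orth i j hij t

theorem det_sq_of_orth {V : Matrix (Fin n) (Fin n) ℝ} (hV : V ∈ Matrix.orthogonalGroup (Fin n) ℝ) :
    V.det * V.det = 1 := by
  rw [Matrix.mem_orthogonalGroup_iff'] at hV
  have := congrArg Matrix.det hV
  rwa [Matrix.det_mul, Matrix.det_transpose, Matrix.det_one] at this

theorem Rm_det (i j : Fin n) (hij : i ≠ j) (t : ℝ) : (Rm i j t).det = 1 := by
  have h1 : Rm i j t = Rm i j (t / 2) * Rm i j (t / 2) := by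
    rw [Rm_mul i j hij]; congr 1; ring
  rw [h1, Matrix.det_mul]
  exact det_sq_of_orth (Rm_mem_orth i j hij _)

theorem Rm_mem_so (i j : Fin n) (hij : i ≠ j) (t : ℝ) :
    Rm i j t ∈ Matrix.specialOrthogonalGroup (Fin n) ℝ := by
  rw [Matrix.mem_specialOrthogonalGroup_iff]
  exact ⟨Rm_mem_orth i j hij t, Rm_det i j hij t⟩

/-- The monoid generated by the coordinate rotations. -/
def RGen (n : ℕ) : Submonoid (Matrix (Fin n) (Fin n) ℝ) :=
  Submonoid.closure {R | ∃ (i j : Fin n) (t : ℝ), i ≠ j ∧ R = Rm i j t}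

theorem Rm_mem_gen (i j : Fin n) (hij : i ≠ j) (t : ℝ) : Rm i j t ∈ RGen n :=
  Submonoid.subset_closure ⟨i, j, t, hij, rfl⟩

theorem gen_le_so {V : Matrix (Fin n) (Fin n) ℝ} (hV : V ∈ RGen n) :
    V ∈ Matrix.specialOrthogonalGroup (Fin n) ℝ := by
  have : RGen n ≤ Matrix.specialOrthogonalGroup (Fin n) ℝ := by
    rw [RGen, Submonoid.closure_le]
    rintro R ⟨i, j, t, hij, rfl⟩
    exact Rm_mem_so i j hij t
  exact this hV

theorem gen_inv {V : Matrix (Fin n) (Fin n) ℝ} (hV : V ∈ RGen n) : ∃ W ∈ RGen n, V * W = 1 := by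
  induction hV using Submonoid.closure_induction with
  | mem R hR =>
    obtain ⟨i, j, t, hij, rfl⟩ := hR
    refine ⟨Rm i j (-t), Rm_mem_gen i j hij _, ?_⟩
    rw [Rm_mul i j hij, neg_add_cancel, Rm_zero]
  | one => exact ⟨1, Submonoid.one_mem _, by simp⟩
  | mul V1 V2 _ _ h1 h2 =>
    obtain ⟨W1, hW1, e1⟩ := h1
    obtain ⟨W2, hW2, e2⟩ := h2
    refine ⟨W2 * W1, Submonoid.mul_mem _ hW2 hW1, ?_⟩
    calc V1 * V2 * (W2 * W1) = V1 * (V2 * W2) * W1 := by simp only [Matrix.mul_assoc]
      _ = 1 := by rw [e2, Matrix.mul_one, e1]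

theorem mem_gen_of_mul {V R : Matrix (Fin n) (Fin n) ℝ} (hR : R ∈ RGen n) (h : V * R ∈ RGen n) :
    V ∈ RGen n := by
  obtain ⟨W, hW, e⟩ := gen_inv hR
  have : V = V * R * W := by rw [Matrix.mul_assoc, e, Matrix.mul_one]
  rw [this]
  exact Submonoid.mul_mem _ h hW

theorem so_rows {V : Matrix (Fin n) (Fin n) ℝ} (hV : V ∈ Matrix.specialOrthogonalGroup (Fin n) ℝ)
    (a b : Fin n) : ∑ k, V a k * V b k = if a = b then 1 else 0 := by
  have h1 := (Matrix.mem_specialOrthogonalGroup_iff.mp hV).1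
  rw [Matrix.mem_orthogonalGroup_iff] at h1
  have h2 := congrFun (congrFun h1 a) b
  rw [Matrix.mul_apply, Matrix.one_apply] at h2
  simpa using h2

theorem mul_Rm_apply (V : Matrix (Fin n) (Fin n) ℝ) (i j : Fin n) (t : ℝ) (a b : Fin n) :
    (V * Rm i j t) a b = if b = j then Real.cos t * V a j + Real.sin t * V a i
      else if b = i then Real.cos t * V a i - Real.sin t * V a j else V a b := by
  have h := rot_eq_rmul i j t (V : Mat n)
  have h2 := congrFun (congrFun h a) b
  have h3 : rmul (Rm i j t) (V : Mat n) a b = (V * Rm i j t) a b := rfl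
  rw [← h3, ← h2]; rfl

/-- inner elimination -/
theorem elim_row (k : Fin n) (V : Matrix (Fin n) (Fin n) ℝ)
    (hrow : ∀ b, k < b → ∀ c, V b c = if b = c then 1 else 0) (m : ℕ) (hm : m ≤ k.val) :
    ∃ R ∈ RGen n, (∀ b, k < b → ∀ c, (V * R) b c = if b = c then 1 else 0) ∧
      (∀ i : Fin n, i.val < m → (V * R) k i = 0) ∧ (0 < m → 0 ≤ (V * R) k k) := by
  induction m with
  | zero =>
    refine ⟨1, Submonoid.one_mem _, by simpa using hrow, ?_, ?_⟩
    · intro i hi; exact absurd hi (Nat.not_lt_zero _)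
    · intro h; exact absurd h (Nat.not_lt_zero _)
  | succ m ih =>
    obtain ⟨R, hR, h1, h2, h3⟩ := ih (by omega)
    set W := V * R with hW
    have hmn : m < n := by have := k.isLt; omega
    set i : Fin n := ⟨m, hmn⟩ with hi
    have hik : i ≠ k := by
      intro h; rw [Fin.ext_iff] at h; simp [hi] at h; omega
    set z : ℂ := ⟨W k k, W k i⟩ with hz
    set t := Complex.arg z with ht
    have hcos : Real.cos t * ‖z‖ = W k k := by
      rcases eq_or_ne z 0 with h | h
      · rw [h]; have := congrArg Complex.re h; simp [hz] at this; simp [this]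
      · rw [ht, Complex.cos_arg h]
        have : ‖z‖ ≠ 0 := by simpa using h
        rw [div_mul_cancel₀ _ this]
    have hsin : Real.sin t * ‖z‖ = W k i := by
      rcases eq_or_ne z 0 with h | h
      · rw [h]; have := congrArg Complex.im h; simp [hz] at this; simp [this]
      · rw [ht, Complex.sin_arg]
        have : ‖z‖ ≠ 0 := by simpa using h
        rw [div_mul_cancel₀ _ this]
    refine ⟨R * Rm i k t, Submonoid.mul_mem _ hR (Rm_mem_gen i k hik t), ?_, ?_, ?_⟩
    · intro b hb c
      rw [← Matrix.mul_assoc, ← hW, mul_Rm_apply]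
      have hbk : b ≠ k := hb.ne'
      have hbi : b ≠ i := by
        intro h
        rw [h, Fin.lt_def] at hb
        simp [hi] at hb
        omega
      rw [h1 b hb k, h1 b hb i, h1 b hb c, if_neg hbk, if_neg hbi]
      by_cases q1 : c = k
      · rw [if_pos q1, if_neg (by rw [q1]; exact hbk)]; ring
      · rw [if_neg q1]
        by_cases q2 : c = i
        · rw [if_pos q2, if_neg (by rw [q2]; exact hbi)]; ring
        · rw [if_neg q2]
    · intro i' hi'
      rw [← Matrix.mul_assoc, ← hW, mul_Rm_apply]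
      have hi'k : i' ≠ k := by
        intro h; rw [h] at hi'; omega
      rw [if_neg hi'k]
      by_cases h : i' = i
      · rw [if_pos h, ← hcos, ← hsin]; ring
      · rw [if_neg h]
        apply h2
        have : i'.val ≠ m := fun h' => h (Fin.ext h')
        omega
    · intro _
      rw [← Matrix.mul_assoc, ← hW, mul_Rm_apply, if_pos rfl, ← hcos, ← hsin]
      have : Real.cos t * (Real.cos t * ‖z‖) + Real.sin t * (Real.sin t * ‖z‖) = ‖z‖ := by
        have := Real.cos_sq_add_sin_sq t
        linear_combination ‖z‖ * this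
      rw [this]
      exact norm_nonneg _

/-- `SO(n)` is generated by coordinate rotations. -/
theorem so_le_gen_aux (k : ℕ) (hk : k ≤ n) (hk1 : 1 ≤ k) (V : Matrix (Fin n) (Fin n) ℝ)
    (hV : V ∈ Matrix.specialOrthogonalGroup (Fin n) ℝ)
    (hrow : ∀ b : Fin n, k ≤ b.val → ∀ c, V b c = if b = c then 1 else 0) : V ∈ RGen n := by
  induction k, hk1 using Nat.le_induction generalizing V with
  | base =>
    -- all rows except the first are basis vectors
    have hn : 0 < n := by omega
    set z : Fin n := ⟨0, hn⟩ with hz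
    have h0 : ∀ b, b ≠ z → V z b = 0 := by
      intro b hb
      have hb1 : 1 ≤ b.val := by
        rcases Nat.eq_zero_or_pos b.val with h | h
        · exact absurd (Fin.ext h) hb
        · exact h
      have h1 := so_rows hV z b
      rw [if_neg (Ne.symm hb)] at h1
      simp only [hrow b hb1] at h1
      simpa using h1
    have hdiag : V = Matrix.diagonal (fun b => if b = z then V z z else 1) := by
      ext a b
      rw [Matrix.diagonal_apply]
      by_cases ha : a = z
      · subst ha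
        by_cases hb : b = z
        · subst hb; simp
        · rw [h0 b hb, if_neg (Ne.symm hb)]
      · have ha1 : 1 ≤ a.val := by
          rcases Nat.eq_zero_or_pos a.val with h | h
          · exact absurd (Fin.ext h) ha
          · exact h
        rw [hrow a ha1 b]
        split_ifs <;> simp_all
    have hdet := (Matrix.mem_specialOrthogonalGroup_iff.mp hV).2
    have hdet2 : V.det = V z z := by
      conv_lhs => rw [hdiag]
      rw [Matrix.det_diagonal]
      simp
    have hzz : V z z = 1 := by rw [← hdet2, hdet]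
    have : V = 1 := by
      rw [hdiag, hzz]
      ext a b
      rw [Matrix.diagonal_apply, Matrix.one_apply]
      simp
    rw [this]
    exact Submonoid.one_mem _
  | succ k hk1 ih =>
    have hkn : k < n := by omega
    set kk : Fin n := ⟨k, hkn⟩ with hkk
    obtain ⟨R, hR, h1, h2, h3⟩ := elim_row kk V (fun b hb c => hrow b (by
      rw [Fin.lt_def] at hb; simpa [hkk] using hb) c) k le_rfl
    apply mem_gen_of_mul hR
    have hW : V * R ∈ Matrix.specialOrthogonalGroup (Fin n) ℝ :=
      Submonoid.mul_mem _ hV (gen_le_so hR)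
    apply ih (by omega) _ hW
    intro b hb c
    rcases eq_or_lt_of_le hb with h | h
    · have hbk : b = kk := Fin.ext h.symm
      subst hbk
      have hz : ∀ c, c ≠ kk → (V * R) kk c = 0 := by
        intro c hc
        rcases lt_or_gt_of_ne (fun h' => hc (Fin.ext h') : c.val ≠ kk.val) with h' | h'
        · exact h2 c (by simpa [hkk] using h')
        · have h5 := so_rows hW kk c
          rw [if_neg (Ne.symm hc)] at h5
          simp only [h1 c (by rw [Fin.lt_def]; exact h')] at h5
          simpa using h5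
      have hnorm := so_rows hW kk kk
      rw [if_pos rfl, Finset.sum_eq_single kk (fun b _ hb => by rw [hz b hb]; ring)
        (fun h => absurd (Finset.mem_univ _) h)] at hnorm
      have h6 := h3 (by omega)
      have h7 : (V * R) kk kk = 1 := by nlinarith
      by_cases hc : kk = c
      · rw [← hc, if_pos rfl]; exact h7
      · rw [if_neg hc]; exact hz c (Ne.symm hc)
    · exact h1 b (by rw [Fin.lt_def]; exact h) c

theorem so_le_gen (hn : 1 ≤ n) {V : Matrix (Fin n) (Fin n) ℝ}
    (hV : V ∈ Matrix.specialOrthogonalGroup (Fin n) ℝ) : V ∈ RGen n :=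
  so_le_gen_aux n le_rfl hn V hV (fun b hb _ => absurd b.isLt (by omega))

end Crest.Agent.Lib.OrthPoinc
end

-- ▼ part Lib/OrthPoinc/Const
section

set_option autoImplicit false

/-!
Zero-energy polynomials are almost surely constant; the Poincare inequality for polynomials.
-/

namespace Crest.Agent.Lib.OrthPoinc

open MvPolynomial MeasureTheory

variable {n : ℕ}

/-- A law on `SO(n)` which is invariant under right multiplication by `SO(n)`. -/
structure SOInv (μ : Measure (Mat n)) : Prop where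
  mem : ∀ᵐ U ∂μ, Matrix.of U ∈ Matrix.specialOrthogonalGroup (Fin n) ℝ
  inv : ∀ V ∈ Matrix.specialOrthogonalGroup (Fin n) ℝ, μ.map (rmul V) = μ

theorem continuous_rmul (V : Matrix (Fin n) (Fin n) ℝ) : Continuous (rmul V) := by
  refine continuous_pi fun i => continuous_pi fun j => ?_
  simp only [rmul_apply]
  fun_prop

theorem abs_le_one_of_rows {U : Mat n} (h : ∀ a : Fin n, ∑ k, U a k * U a k = 1) (a b : Fin n) :
    |U a b| ≤ 1 := by
  have h1 : U a b * U a b ≤ ∑ k, U a k * U a k :=
    Finset.single_le_sum (f := fun k => U a k * U a k) (fun k _ => mul_self_nonneg _)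
      (Finset.mem_univ b)
  rw [h a] at h1
  rw [abs_le_one_iff_mul_self_le_one]
  exact h1

theorem abs_le_one_of_so {U : Mat n}
    (hU : Matrix.of U ∈ Matrix.specialOrthogonalGroup (Fin n) ℝ) (a b : Fin n) : |U a b| ≤ 1 := by
  refine abs_le_one_of_rows (fun a => ?_) a b
  have := so_rows hU a a
  rw [if_pos rfl] at this
  exact this

theorem SOInv.rotInv {μ : Measure (Mat n)} (hμ : SOInv μ) : RotInv μ where
  bdd := by
    filter_upwards [hμ.mem] with U hU a b
    exact abs_le_one_of_so hU a b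
  inv i j hij t := by
    have : rot i j t = rmul (Rm i j t) := by funext U; exact rot_eq_rmul i j t U
    rw [this]
    exact hμ.inv _ (Rm_mem_so i j hij t)

theorem SOInv.mp {μ : Measure (Mat n)} (hμ : SOInv μ) {V : Matrix (Fin n) (Fin n) ℝ}
    (hV : V ∈ Matrix.specialOrthogonalGroup (Fin n) ℝ) : MeasurePreserving (rmul V) μ μ :=
  ⟨(continuous_rmul V).measurable, hμ.inv V hV⟩

variable {μ : Measure (Mat n)} [IsProbabilityMeasure μ]

omit [IsProbabilityMeasure μ] in
theorem continuous_rot_t (i j : Fin n) (U : Mat n) : Continuous (fun s : ℝ => rot i j s U) := by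
  unfold rot
  refine continuous_pi fun a => continuous_pi fun b => ?_
  split_ifs <;> fun_prop

theorem ae_rot_invariant (hμ : RotInv μ) (i j : Fin n) (hij : i ≠ j) (f0 : PolyM n)
    (hz : ∀ᵐ U ∂μ, ev (Xd i j f0) U = 0) (t : ℝ) :
    ∀ᵐ U ∂μ, ev f0 (rot i j t U) = ev f0 U := by
  have h1 : ∀ s : ℝ, ∀ᵐ U ∂μ, ev (Xd i j f0) (rot i j s U) = 0 := by
    intro s
    have hmp : MeasurePreserving (rot i j s) μ μ :=
      ⟨(continuous_rot i j s).measurable, hμ.inv i j hij s⟩
    exact hmp.quasiMeasurePreserving.ae hz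
  have hcont : Continuous (fun z : ℝ × Mat n => ev (Xd i j f0) (rot i j z.1 z.2)) :=
    (continuous_ev _).comp (continuous_rot_joint i j)
  have h2 : ∀ᵐ U ∂μ, ∀ᵐ s ∂(volume : Measure ℝ), ev (Xd i j f0) (rot i j s U) = 0 := by
    rw [← Measure.ae_ae_comm (p := fun s U => ev (Xd i j f0) (rot i j s U) = 0)]
    · exact Filter.Eventually.of_forall h1
    · exact measurableSet_eq_fun hcont.measurable measurable_const
  filter_upwards [h2] with U hU
  have h3 : ∫ s in (0 : ℝ)..t, ev (Xd i j f0) (rot i j s U) =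
      ev f0 (rot i j t U) - ev f0 (rot i j 0 U) := by
    apply intervalIntegral.integral_eq_sub_of_hasDerivAt
    · intro s _
      exact hasDerivAt_ev_rot i j hij f0 U s
    · have hcs : Continuous fun s : ℝ => ev (Xd i j f0) (rot i j s U) :=
        (continuous_ev (Xd i j f0)).comp (continuous_rot_t i j U)
      exact hcs.intervalIntegrable _ _
  have h4 : ∫ s in (0 : ℝ)..t, ev (Xd i j f0) (rot i j s U) = 0 := by
    rw [intervalIntegral.integral_congr_ae (g := fun _ => (0 : ℝ))]
    · simp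
    · filter_upwards [hU] with s hs _
      exact hs
  rw [h4, rot_zero] at h3
  linarith

theorem ae_rmul_invariant (hμ : SOInv μ) (hn : 1 ≤ n) (f0 : PolyM n)
    (hz : ∀ i j, ∀ᵐ U ∂μ, ev (Xd i j f0) U = 0) (V : Matrix (Fin n) (Fin n) ℝ)
    (hV : V ∈ Matrix.specialOrthogonalGroup (Fin n) ℝ) :
    ∀ᵐ U ∂μ, ev f0 (rmul V U) = ev f0 U := by
  have hV' := so_le_gen hn hV
  clear hV
  unfold RGen at hV'
  induction hV' using Submonoid.closure_induction with
  | mem R hR =>
    obtain ⟨i, j, t, hij, rfl⟩ := hR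
    have := ae_rot_invariant hμ.rotInv i j hij f0 (hz i j) t
    filter_upwards [this] with U hU
    rw [← rot_eq_rmul]; exact hU
  | one => exact Filter.Eventually.of_forall fun U => by rw [rmul_one]
  | mul V1 V2 hV1 hV2 h1 h2 =>
    have hmp := hμ.mp (gen_le_so hV1)
    have h3 := hmp.quasiMeasurePreserving.ae h2
    filter_upwards [h1, h3] with U hU1 hU3
    rw [← rmul_rmul, hU3, hU1]

theorem transpose_mem_so {V : Matrix (Fin n) (Fin n) ℝ}
    (hV : V ∈ Matrix.specialOrthogonalGroup (Fin n) ℝ) :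
    V.transpose ∈ Matrix.specialOrthogonalGroup (Fin n) ℝ := by
  rw [Matrix.mem_specialOrthogonalGroup_iff] at hV ⊢
  refine ⟨?_, by rw [Matrix.det_transpose]; exact hV.2⟩
  have h1 := hV.1
  rw [Matrix.mem_orthogonalGroup_iff] at h1
  rw [Matrix.mem_orthogonalGroup_iff']
  rw [Matrix.transpose_transpose]
  exact h1

theorem ae_const (hμ : SOInv μ) (hn : 1 ≤ n) (f0 : PolyM n)
    (hz : ∀ i j, ∀ᵐ U ∂μ, ev (Xd i j f0) U = 0) :
    ∀ᵐ U ∂μ, ev f0 U = ∫ V, ev f0 (fun i j => V j i) ∂μ := by
  have h1 : ∀ᵐ V ∂μ, ∀ᵐ U ∂μ, ev f0 (rmul (Matrix.of V).transpose U) = ev f0 U := by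
    filter_upwards [hμ.mem] with V hV
    exact ae_rmul_invariant hμ hn f0 hz _ (transpose_mem_so hV)
  have hc1 : Continuous (fun z : Mat n × Mat n => ev f0 (rmul (Matrix.of z.1).transpose z.2)) := by
    refine (continuous_ev f0).comp ?_
    refine continuous_pi fun i => continuous_pi fun j => ?_
    simp only [rmul_apply, Matrix.transpose_apply, Matrix.of_apply]
    fun_prop
  have h2 : ∀ᵐ U ∂μ, ∀ᵐ V ∂μ, ev f0 (rmul (Matrix.of V).transpose U) = ev f0 U := by
    rw [← Measure.ae_ae_comm (p := fun V U => ev f0 (rmul (Matrix.of V).transpose U) = ev f0 U)]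
    · exact h1
    · exact measurableSet_eq_fun hc1.measurable
        (((continuous_ev f0).comp continuous_snd).measurable)
  filter_upwards [h2, hμ.mem] with U hU hUso
  set g : Mat n → ℝ := fun W => ev f0 (fun i j => W j i) with hg
  have hgc : Continuous g := (continuous_ev f0).comp (by fun_prop)
  have e1 : ev f0 U = ∫ V, ev f0 (rmul (Matrix.of V).transpose U) ∂μ := by
    rw [integral_congr_ae hU]
    simp
  have e2 : ∀ V : Mat n, ev f0 (rmul (Matrix.of V).transpose U) =
      g (rmul (Matrix.of U).transpose V) := by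
    intro V
    simp only [hg]
    congr 1
    funext i j
    simp only [rmul_apply, Matrix.transpose_apply, Matrix.of_apply]
    exact Finset.sum_congr rfl fun k _ => mul_comm _ _
  rw [e1]
  simp only [e2]
  have hmp := hμ.mp (transpose_mem_so hUso)
  have e3 : ∫ V, g (rmul (Matrix.of U).transpose V) ∂μ =
      ∫ V, g V ∂(μ.map (rmul (Matrix.of U).transpose)) :=
    (integral_map hmp.measurable.aemeasurable hgc.aestronglyMeasurable).symm
  rw [e3, hmp.map_eq]

theorem variance_le (hb : ∀ᵐ U ∂μ, ∀ a b, |U a b| ≤ 1) (p : PolyM n) (c : ℝ) :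
    ∫ U, (ev p U - ∫ V, ev p V ∂μ) ^ 2 ∂μ ≤ ∫ U, (ev p U - c) ^ 2 ∂μ := by
  set m := ∫ V, ev p V ∂μ with hm
  have hi := integrable_ev hb p
  have hi2 := integrable_ev_sq hb p
  have e : ∀ a : ℝ, ∫ U, (ev p U - a) ^ 2 ∂μ = ∫ U, (ev p U) ^ 2 ∂μ - 2 * a * m + a ^ 2 := by
    intro a
    have h1 : ∀ U, (ev p U - a) ^ 2 = (ev p U) ^ 2 - 2 * a * ev p U + a ^ 2 := fun U => by ring
    simp only [h1]
    have h2 : Integrable (fun U => 2 * a * ev p U) μ := hi.const_mul _
    rw [integral_add (f := fun U => (ev p U) ^ 2 - 2 * a * ev p U) (g := fun _ => a ^ 2)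
      (hi2.sub h2) (integrable_const _),
      integral_sub (f := fun U => (ev p U) ^ 2) (g := fun U => 2 * a * ev p U) hi2 h2,
      integral_const_mul]
    simp [hm]
  rw [e m, e c]
  nlinarith [sq_nonneg (m - c)]

/-- **Poincare inequality** on `SO(n)` for polynomials. -/
theorem poly_poincare (hμ : SOInv μ) (hn : 2 < n) (p : PolyM n) :
    ((n : ℝ) - 2) * ∫ U, (ev p U - ∫ V, ev p V ∂μ) ^ 2 ∂μ ≤ ∫ U, Gam p U ∂μ := by
  obtain ⟨f0, hz, hle⟩ := poly_gap hμ.rotInv hn p
  have hc := ae_const hμ (by omega) f0 hz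
  have hn' : (0 : ℝ) ≤ (n : ℝ) - 2 := by
    have : (2 : ℝ) < n := by exact_mod_cast hn
    linarith
  set c := ∫ V, ev f0 (fun i j => V j i) ∂μ with hcdef
  have h1 : ∫ U, (ev p U - ev f0 U) ^ 2 ∂μ = ∫ U, (ev p U - c) ^ 2 ∂μ := by
    apply integral_congr_ae
    filter_upwards [hc] with U hU
    rw [hU]
  rw [h1] at hle
  exact (mul_le_mul_of_nonneg_left (variance_le hμ.rotInv.bdd p c) hn').trans hle

end Crest.Agent.Lib.OrthPoinc
end

-- ▼ part Lib/OrthPoinc/C1
section

set_option autoImplicit false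

/-!
The class `C1cl` of functions that are `C^1`-approximable by polynomials, closure properties, and
the Poincare inequality for this class.
-/

namespace Crest.Agent.Lib.OrthPoinc

open MeasureTheory

/-- one-variable `C^1` Weierstrass theorem -/
theorem exists_poly_C1 (a b : ℝ) (hab : a ≤ b) (g g' : ℝ → ℝ)
    (hg : ∀ x ∈ Set.Icc a b, HasDerivAt g (g' x) x) (hg' : ContinuousOn g' (Set.Icc a b))
    (ε : ℝ) (hε : 0 < ε) :
    ∃ P : Polynomial ℝ, ∀ x ∈ Set.Icc a b, |P.eval x - g x| ≤ ε ∧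
      |P.derivative.eval x - g' x| ≤ ε := by
  set δ := ε / (b - a + 1) with hδdef
  have hba : 0 < b - a + 1 := by linarith
  have hδ : 0 < δ := div_pos hε hba
  obtain ⟨Q, hQ⟩ := exists_polynomial_near_of_continuousOn a b g' hg' δ hδ
  -- antiderivative
  obtain ⟨P0, hP0⟩ : ∃ P0 : Polynomial ℝ, P0.derivative = Q := by
    refine ⟨Q.sum fun n c => Polynomial.monomial (n + 1) (c / ((n : ℝ) + 1)), ?_⟩
    rw [Polynomial.sum, Polynomial.derivative_sum]
    conv_rhs => rw [Q.as_sum_support]
    refine Finset.sum_congr rfl fun n _ => ?_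
    rw [Polynomial.derivative_monomial]
    congr 1
    push_cast
    have : ((n : ℝ) + 1) ≠ 0 := by positivity
    field_simp
  set P : Polynomial ℝ := P0 + Polynomial.C (g a - P0.eval a) with hP
  have hPd : P.derivative = Q := by simp [hP, hP0]
  have hδε : δ ≤ ε := by
    rw [hδdef, div_le_iff₀ hba]
    nlinarith
  refine ⟨P, fun x hx => ⟨?_, ?_⟩⟩
  · -- mean value inequality for `P - g`
    have hder : ∀ y ∈ Set.Icc a b, HasDerivWithinAt (fun y => P.eval y - g y)
        (Q.eval y - g' y) (Set.Icc a b) y := by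
      intro y hy
      have h1 := P.hasDerivAt y
      rw [hPd] at h1
      exact (h1.sub (hg y hy)).hasDerivWithinAt
    have hbound : ∀ y ∈ Set.Icc a b, ‖Q.eval y - g' y‖ ≤ δ := by
      intro y hy
      rw [Real.norm_eq_abs]
      exact (hQ y hy).le
    have := (convex_Icc a b).norm_image_sub_le_of_norm_hasDerivWithin_le hder hbound
      (Set.left_mem_Icc.mpr hab) hx
    have h0 : P.eval a - g a = 0 := by simp [hP]
    rw [h0, sub_zero, Real.norm_eq_abs, Real.norm_eq_abs] at this
    refine this.trans ?_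
    have h2 : |x - a| ≤ b - a := by
      rw [abs_of_nonneg (by linarith [hx.1])]; linarith [hx.2]
    calc δ * |x - a| ≤ δ * (b - a + 1) := by gcongr; linarith
      _ = ε := by rw [hδdef]; field_simp
  · rw [hPd]
    exact (hQ x hx).le.trans hδε

variable {n : ℕ}

/-- `f` is `C^1`-approximable by polynomials on the cube of matrices with entries in `[-1,1]`;
`Df i j` are its derivatives in the directions of the rotations. -/
def C1cl (f : Mat n → ℝ) (Df : Fin n → Fin n → Mat n → ℝ) : Prop :=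
  ∀ ε : ℝ, 0 < ε → ∃ p : PolyM n, ∀ U : Mat n, (∀ a b, |U a b| ≤ 1) →
    |ev p U - f U| ≤ ε ∧ ∀ i j, |ev (Xd i j p) U - Df i j U| ≤ ε

theorem C1cl.poly (p : PolyM n) : C1cl (ev p) (fun i j => ev (Xd i j p)) := by
  intro ε hε
  refine ⟨p, fun U _ => ⟨?_, fun i j => ?_⟩⟩ <;> simp [hε.le]

theorem C1cl.congr {f g : Mat n → ℝ} {Df Dg : Fin n → Fin n → Mat n → ℝ} (hf : C1cl f Df)
    (h1 : ∀ U : Mat n, (∀ a b, |U a b| ≤ 1) → f U = g U)
    (h2 : ∀ U : Mat n, (∀ a b, |U a b| ≤ 1) → ∀ i j, Df i j U = Dg i j U) : C1cl g Dg := by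
  intro ε hε
  obtain ⟨p, hp⟩ := hf ε hε
  refine ⟨p, fun U hU => ⟨?_, fun i j => ?_⟩⟩
  · rw [← h1 U hU]; exact (hp U hU).1
  · rw [← h2 U hU]; exact (hp U hU).2 i j

theorem C1cl.add {f g : Mat n → ℝ} {Df Dg : Fin n → Fin n → Mat n → ℝ} (hf : C1cl f Df)
    (hg : C1cl g Dg) : C1cl (fun U => f U + g U) (fun i j U => Df i j U + Dg i j U) := by
  intro ε hε
  obtain ⟨p, hp⟩ := hf (ε / 2) (by linarith)
  obtain ⟨q, hq⟩ := hg (ε / 2) (by linarith)
  refine ⟨p + q, fun U hU => ⟨?_, fun i j => ?_⟩⟩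
  · rw [ev_add]
    have h1 := abs_le.mp (hp U hU).1
    have h2 := abs_le.mp (hq U hU).1
    rw [abs_le]; constructor <;> linarith [h1.1, h1.2, h2.1, h2.2]
  · rw [map_add, ev_add]
    have h1 := abs_le.mp ((hp U hU).2 i j)
    have h2 := abs_le.mp ((hq U hU).2 i j)
    rw [abs_le]; constructor <;> linarith [h1.1, h1.2, h2.1, h2.2]

theorem C1cl.const_mul {f : Mat n → ℝ} {Df : Fin n → Fin n → Mat n → ℝ} (hf : C1cl f Df)
    (c : ℝ) : C1cl (fun U => c * f U) (fun i j U => c * Df i j U) := by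
  intro ε hε
  have hc : 0 < |c| + 1 := by positivity
  obtain ⟨p, hp⟩ := hf (ε / (|c| + 1)) (by positivity)
  have key : ∀ x y : ℝ, |x - y| ≤ ε / (|c| + 1) → |c * x - c * y| ≤ ε := by
    intro x y h
    rw [← mul_sub, abs_mul]
    calc |c| * |x - y| ≤ (|c| + 1) * (ε / (|c| + 1)) := by
          gcongr
          · linarith
      _ = ε := by field_simp
  refine ⟨c • p, fun U hU => ⟨?_, fun i j => ?_⟩⟩
  · rw [ev_smul]; exact key _ _ (hp U hU).1
  · rw [Derivation.map_smul, ev_smul]; exact key _ _ ((hp U hU).2 i j)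

theorem C1cl.const (c : ℝ) : C1cl (n := n) (fun _ => c) (fun _ _ _ => 0) := by
  refine (C1cl.poly (MvPolynomial.C c)).congr (fun U _ => by rw [ev_C]) (fun U _ i j => ?_)
  have h2 : Xd i j (MvPolynomial.C c : PolyM n) = 0 := MvPolynomial.derivation_C _ _
  rw [h2, ev_zero]

theorem C1cl.sum {ι : Type*} (s : Finset ι) {f : ι → Mat n → ℝ}
    {Df : ι → Fin n → Fin n → Mat n → ℝ} (hf : ∀ k ∈ s, C1cl (f k) (Df k)) :
    C1cl (fun U => ∑ k ∈ s, f k U) (fun i j U => ∑ k ∈ s, Df k i j U) := by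
  classical
  induction s using Finset.induction_on with
  | empty => simpa using C1cl.const (n := n) 0
  | insert a s ha ih =>
    have h1 := (hf a (Finset.mem_insert_self _ _)).add
      (ih fun k hk => hf k (Finset.mem_insert_of_mem hk))
    refine h1.congr (fun U _ => ?_) (fun U _ i j => ?_)
    · rw [Finset.sum_insert ha]
    · rw [Finset.sum_insert ha]

theorem C1cl.bound {f : Mat n → ℝ} {Df : Fin n → Fin n → Mat n → ℝ} (hf : C1cl f Df) :
    ∃ K : ℝ, 0 ≤ K ∧ ∀ U : Mat n, (∀ a b, |U a b| ≤ 1) → |f U| ≤ K ∧ ∀ i j, |Df i j U| ≤ K := by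
  obtain ⟨p, hp⟩ := hf 1 one_pos
  obtain ⟨K0, hK0, hK⟩ := exists_bound_ev p 1
  choose K1 hK1 hK1' using fun ij : Fin n × Fin n => exists_bound_ev (Xd ij.1 ij.2 p) 1
  refine ⟨K0 + ∑ ij, K1 ij + 1, ?_, fun U hU => ⟨?_, fun i j => ?_⟩⟩
  · have := Finset.sum_nonneg fun ij (_ : ij ∈ Finset.univ) => hK1 ij
    linarith
  · have h1 := (hp U hU).1
    have h2 := hK U hU
    have h3 := Finset.sum_nonneg fun ij (_ : ij ∈ Finset.univ) => hK1 ij
    have h4 : |f U| ≤ |ev p U| + |ev p U - f U| := by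
      have := abs_sub_abs_le_abs_sub (f U) (ev p U)
      rw [abs_sub_comm (f U)] at this
      linarith
    linarith
  · have h1 := (hp U hU).2 i j
    have h2 := hK1' (i, j) U hU
    have h3 : K1 (i, j) ≤ ∑ ij, K1 ij :=
      Finset.single_le_sum (fun ij _ => hK1 ij) (Finset.mem_univ (i, j))
    have h4 : |Df i j U| ≤ |ev (Xd i j p) U| + |ev (Xd i j p) U - Df i j U| := by
      have := abs_sub_abs_le_abs_sub (Df i j U) (ev (Xd i j p) U)
      rw [abs_sub_comm (Df i j U)] at this
      linarith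
    simp only at h2
    linarith

theorem ev_aeval (P : Polynomial ℝ) (p : PolyM n) (U : Mat n) :
    ev (Polynomial.aeval p P) U = P.eval (ev p U) := by
  induction P using Polynomial.induction_on' with
  | add P Q hP hQ => simp only [map_add, ev_add, hP, hQ, Polynomial.eval_add]
  | monomial k c =>
    rw [Polynomial.aeval_monomial, Polynomial.eval_monomial, ev_mul, ev_pow]
    congr 1
    exact ev_C c U

theorem C1cl.comp {f : Mat n → ℝ} {Df : Fin n → Fin n → Mat n → ℝ} (hf : C1cl f Df)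
    (a b : ℝ) (hab : ∀ U : Mat n, (∀ a b, |U a b| ≤ 1) → f U ∈ Set.Icc a b) (g g' : ℝ → ℝ)
    (hg : ∀ x ∈ Set.Icc a b, HasDerivAt g (g' x) x) (hg' : ContinuousOn g' (Set.Icc a b)) :
    C1cl (fun U => g (f U)) (fun i j U => g' (f U) * Df i j U) := by
  intro ε hε
  have hab0 : a ≤ b := by
    have := hab (fun _ _ => 0) (by simp)
    exact this.1.trans this.2
  obtain ⟨K, hK0, hK⟩ := hf.bound
  obtain ⟨G, hG⟩ : ∃ G : ℝ, ∀ x ∈ Set.Icc a b, |g' x| ≤ G := by
    obtain ⟨G, hG⟩ := isCompact_Icc.exists_bound_of_continuousOn hg'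
    exact ⟨G, fun x hx => by simpa [Real.norm_eq_abs] using hG x hx⟩
  have hG0 : 0 ≤ G := (abs_nonneg _).trans (hG a (Set.left_mem_Icc.mpr hab0))
  set ε1 := ε / (3 * (K + 2)) with hε1
  have hε1pos : 0 < ε1 := by positivity
  obtain ⟨P, hP⟩ := exists_poly_C1 a b hab0 g g' hg hg' ε1 hε1pos
  -- uniform continuity of `P` and `P'` on `[a-1,b+1]`
  have huc : ∀ Q : Polynomial ℝ, ∃ δ : ℝ, 0 < δ ∧ ∀ x ∈ Set.Icc (a - 1) (b + 1),
      ∀ y ∈ Set.Icc (a - 1) (b + 1), |x - y| ≤ δ → |Q.eval x - Q.eval y| ≤ ε1 := by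
    intro Q
    have h1 : UniformContinuousOn (fun x => Q.eval x) (Set.Icc (a - 1) (b + 1)) :=
      isCompact_Icc.uniformContinuousOn_of_continuous Q.continuous.continuousOn
    rw [Metric.uniformContinuousOn_iff] at h1
    obtain ⟨δ, hδ, h⟩ := h1 ε1 hε1pos
    refine ⟨δ / 2, by linarith, fun x hx y hy hxy => ?_⟩
    have := h x hx y hy (by rw [Real.dist_eq]; linarith)
    rw [Real.dist_eq] at this
    exact this.le
  obtain ⟨δ1, hδ1, hP1⟩ := huc P
  obtain ⟨δ2, hδ2, hP2⟩ := huc P.derivative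
  set δ := min (min δ1 δ2) (min 1 (ε / (3 * (G + 1)))) with hδ
  have hδpos : 0 < δ := by
    have : 0 < ε / (3 * (G + 1)) := by positivity
    simp [hδ, hδ1, hδ2, this]
  obtain ⟨p, hp⟩ := hf δ hδpos
  refine ⟨Polynomial.aeval p P, fun U hU => ?_⟩
  obtain ⟨hp1, hp2⟩ := hp U hU
  have hd1 : δ ≤ δ1 := (min_le_left _ _).trans (min_le_left _ _)
  have hd2 : δ ≤ δ2 := (min_le_left _ _).trans (min_le_right _ _)
  have hd3 : δ ≤ 1 := (min_le_right _ _).trans (min_le_left _ _)
  have hd4 : δ ≤ ε / (3 * (G + 1)) := (min_le_right _ _).trans (min_le_right _ _)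
  have hfU := hab U hU
  have hm1 : f U ∈ Set.Icc (a - 1) (b + 1) := ⟨by linarith [hfU.1], by linarith [hfU.2]⟩
  have hm2 : ev p U ∈ Set.Icc (a - 1) (b + 1) := by
    have := abs_le.mp (hp1.trans hd3)
    exact ⟨by linarith [hfU.1, this.1], by linarith [hfU.2, this.2]⟩
  have hε13 : ε1 ≤ ε / 6 := by
    rw [hε1]
    apply div_le_div_of_nonneg_left hε.le (by norm_num)
    linarith
  constructor
  · rw [ev_aeval]
    have h1 := hP1 _ hm2 _ hm1 (hp1.trans hd1)
    have h2 := (hP (f U) hfU).1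
    have : P.eval (ev p U) - g (f U) =
      (P.eval (ev p U) - P.eval (f U)) + (P.eval (f U) - g (f U)) := by ring
    rw [this]
    refine (abs_add_le _ _).trans ?_
    linarith
  · intro i j
    have hchain : Xd i j (Polynomial.aeval p P) =
        Polynomial.aeval p P.derivative * Xd i j p := by
      have := (Xd i j).map_aeval P p
      rw [smul_eq_mul] at this
      exact this
    rw [hchain, ev_mul, ev_aeval]
    have h1 := hP2 _ hm2 _ hm1 (hp1.trans hd2)
    have h2 := (hP (f U) hfU).2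
    have h3 := hp2 i j
    have h4 : |ev (Xd i j p) U| ≤ K + 1 := by
      have h5 := (hK U hU).2 i j
      have h6 : |ev (Xd i j p) U| ≤ |Df i j U| + |ev (Xd i j p) U - Df i j U| := by
        have := abs_sub_abs_le_abs_sub (ev (Xd i j p) U) (Df i j U)
        linarith
      linarith
    have e : P.derivative.eval (ev p U) * ev (Xd i j p) U - g' (f U) * Df i j U =
        (P.derivative.eval (ev p U) - P.derivative.eval (f U)) * ev (Xd i j p) U +
        (P.derivative.eval (f U) - g' (f U)) * ev (Xd i j p) U +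
        g' (f U) * (ev (Xd i j p) U - Df i j U) := by ring
    rw [e]
    refine (abs_add_le _ _).trans ?_
    have t1 : |(P.derivative.eval (ev p U) - P.derivative.eval (f U)) * ev (Xd i j p) U| ≤
        ε1 * (K + 1) := by rw [abs_mul]; gcongr
    have t2 : |(P.derivative.eval (f U) - g' (f U)) * ev (Xd i j p) U| ≤ ε1 * (K + 1) := by
      rw [abs_mul]; gcongr
    have t3 : |g' (f U) * (ev (Xd i j p) U - Df i j U)| ≤ G * δ := by
      rw [abs_mul]
      have := hG (f U) hfU
      gcongr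
    have t4 : ε1 * (K + 1) ≤ ε / 3 := by
      rw [hε1, div_mul_eq_mul_div, div_le_div_iff₀ (by positivity) (by norm_num)]
      nlinarith
    have t5 : G * δ ≤ ε / 3 := by
      calc G * δ ≤ (G + 1) * (ε / (3 * (G + 1))) := by gcongr; linarith
        _ = ε / 3 := by field_simp
    have := abs_add_le ((P.derivative.eval (ev p U) - P.derivative.eval (f U)) * ev (Xd i j p) U)
      ((P.derivative.eval (f U) - g' (f U)) * ev (Xd i j p) U)
    linarith

variable {μ : Measure (Mat n)} [IsProbabilityMeasure μ]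

/-- **Poincare inequality** on `SO(n)` for `C^1`-approximable functions. -/
theorem C1cl.poincare {f : Mat n → ℝ} {Df : Fin n → Fin n → Mat n → ℝ} (hf : C1cl f Df)
    (hμ : SOInv μ) (hn : 2 < n) :
    ((n : ℝ) - 2) * ∫ U, (f U - ∫ V, f V ∂μ) ^ 2 ∂μ ≤ ∫ U, ∑ i, ∑ j, (Df i j U) ^ 2 ∂μ := by
  have hb := hμ.rotInv.bdd
  obtain ⟨K, hK0, hK⟩ := hf.bound
  choose p hp using fun k : ℕ => hf (1 / ((k : ℝ) + 1)) (by positivity)
  have hε0 : Filter.Tendsto (fun k : ℕ => 1 / ((k : ℝ) + 1)) Filter.atTop (nhds 0) :=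
    tendsto_one_div_add_atTop_nhds_zero_nat
  have hε1 : ∀ k : ℕ, 1 / ((k : ℝ) + 1) ≤ 1 := by
    intro k
    rw [div_le_one (by positivity)]
    have : (0 : ℝ) ≤ k := Nat.cast_nonneg k
    linarith
  have hlim : ∀ U : Mat n, (∀ a b, |U a b| ≤ 1) →
      Filter.Tendsto (fun k => ev (p k) U) Filter.atTop (nhds (f U)) := by
    intro U hU
    rw [tendsto_iff_dist_tendsto_zero]
    refine squeeze_zero (fun _ => dist_nonneg) (fun k => ?_) hε0
    rw [Real.dist_eq]
    exact (hp k U hU).1
  have hlim' : ∀ U : Mat n, (∀ a b, |U a b| ≤ 1) → ∀ i j,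
      Filter.Tendsto (fun k => ev (Xd i j (p k)) U) Filter.atTop (nhds (Df i j U)) := by
    intro U hU i j
    rw [tendsto_iff_dist_tendsto_zero]
    refine squeeze_zero (fun _ => dist_nonneg) (fun k => ?_) hε0
    rw [Real.dist_eq]
    exact (hp k U hU).2 i j
  have hbd1 : ∀ k, ∀ U : Mat n, (∀ a b, |U a b| ≤ 1) → |ev (p k) U| ≤ K + 1 := by
    intro k U hU
    have h1 := (hp k U hU).1
    have h2 := (hK U hU).1
    have h3 := abs_sub_abs_le_abs_sub (ev (p k) U) (f U)
    linarith [hε1 k]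
  have hbd2 : ∀ k, ∀ U : Mat n, (∀ a b, |U a b| ≤ 1) → ∀ i j, |ev (Xd i j (p k)) U| ≤ K + 1 := by
    intro k U hU i j
    have h1 := (hp k U hU).2 i j
    have h2 := (hK U hU).2 i j
    have h3 := abs_sub_abs_le_abs_sub (ev (Xd i j (p k)) U) (Df i j U)
    linarith [hε1 k]
  -- convergence of the means
  have hmean : Filter.Tendsto (fun k => ∫ V, ev (p k) V ∂μ) Filter.atTop (nhds (∫ V, f V ∂μ)) := by
    refine tendsto_integral_of_dominated_convergence (fun _ => K + 1)
      (fun k => (measurable_ev (p k)).aestronglyMeasurable) (integrable_const _) ?_ ?_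
    · intro k
      filter_upwards [hb] with U hU
      rw [Real.norm_eq_abs]
      exact hbd1 k U hU
    · filter_upwards [hb] with U hU
      exact hlim U hU
  have hmb : ∀ k, |∫ V, ev (p k) V ∂μ| ≤ K + 1 := by
    intro k
    have h1 := norm_integral_le_integral_norm (μ := μ) (fun V => ev (p k) V)
    rw [Real.norm_eq_abs] at h1
    refine h1.trans ?_
    have h2 : ∫ V, ‖ev (p k) V‖ ∂μ ≤ ∫ _V : Mat n, (K + 1) ∂μ := by
      apply integral_mono_ae ((integrable_ev hb (p k)).norm) (integrable_const _)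
      filter_upwards [hb] with U hU
      rw [Real.norm_eq_abs]
      exact hbd1 k U hU
    simpa using h2
  have hL : Filter.Tendsto (fun k => ∫ U, (ev (p k) U - ∫ V, ev (p k) V ∂μ) ^ 2 ∂μ) Filter.atTop
      (nhds (∫ U, (f U - ∫ V, f V ∂μ) ^ 2 ∂μ)) := by
    refine tendsto_integral_of_dominated_convergence (fun _ => (2 * (K + 1)) ^ 2)
      (fun k => (((measurable_ev (p k)).sub_const _).pow_const 2).aestronglyMeasurable)
      (integrable_const _) ?_ ?_
    · intro k
      filter_upwards [hb] with U hU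
      rw [Real.norm_eq_abs, abs_of_nonneg (sq_nonneg _), ← sq_abs]
      have h1 := hbd1 k U hU
      have h2 := hmb k
      have h3 : |ev (p k) U - ∫ V, ev (p k) V ∂μ| ≤ 2 * (K + 1) := by
        refine (abs_sub _ _).trans ?_
        linarith
      gcongr
    · filter_upwards [hb] with U hU
      exact ((hlim U hU).sub hmean).pow 2
  have hR : Filter.Tendsto (fun k => ∫ U, Gam (p k) U ∂μ) Filter.atTop
      (nhds (∫ U, ∑ i, ∑ j, (Df i j U) ^ 2 ∂μ)) := by
    refine tendsto_integral_of_dominated_convergence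
      (fun _ => ∑ i : Fin n, ∑ j : Fin n, (K + 1) ^ 2)
      (fun k => ?_) (integrable_const _) ?_ ?_
    · unfold Gam
      refine Measurable.aestronglyMeasurable ?_
      refine Finset.measurable_sum _ fun i _ => Finset.measurable_sum _ fun j _ => ?_
      exact (measurable_ev _).pow_const 2
    · intro k
      filter_upwards [hb] with U hU
      rw [Real.norm_eq_abs, abs_of_nonneg (Finset.sum_nonneg fun i _ => Finset.sum_nonneg
        fun j _ => sq_nonneg _)]
      unfold Gam
      refine Finset.sum_le_sum fun i _ => Finset.sum_le_sum fun j _ => ?_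
      rw [← sq_abs]
      have := hbd2 k U hU i j
      gcongr
    · filter_upwards [hb] with U hU
      unfold Gam
      exact tendsto_finsetSum _ fun i _ => tendsto_finsetSum _ fun j _ => (hlim' U hU i j).pow 2
  exact le_of_tendsto_of_tendsto' (hL.const_mul _) hR fun k => poly_poincare hμ hn (p k)

end Crest.Agent.Lib.OrthPoinc
end

-- ▼ part Lib/OrthPoinc/Moment

set_option autoImplicit false

/-!
Fourth moment bound on `SO(n)` for `C^1`-approximable functions, log-sum-exp functions, passage from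
`O(n)` to `SO(n)`.
-/

namespace Crest.Agent.Lib.OrthPoinc

open MeasureTheory

variable {n : ℕ} {μ : Measure (Mat n)} [IsProbabilityMeasure μ]

theorem C1cl.tendsto_poly {f : Mat n → ℝ} {Df : Fin n → Fin n → Mat n → ℝ} (hf : C1cl f Df) :
    ∃ p : ℕ → PolyM n, ∀ U : Mat n, (∀ a b, |U a b| ≤ 1) →
      Filter.Tendsto (fun k => ev (p k) U) Filter.atTop (nhds (f U)) := by
  choose p hp using fun k : ℕ => hf (1 / ((k : ℝ) + 1)) (by positivity)
  refine ⟨p, fun U hU => ?_⟩
  rw [tendsto_iff_dist_tendsto_zero]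
  refine squeeze_zero (fun _ => dist_nonneg) (fun k => ?_) tendsto_one_div_add_atTop_nhds_zero_nat
  rw [Real.dist_eq]
  exact (hp k U hU).1

theorem C1cl.aesm {f : Mat n → ℝ} {Df : Fin n → Fin n → Mat n → ℝ} (hf : C1cl f Df)
    (hb : ∀ᵐ U ∂μ, ∀ a b, |U a b| ≤ 1) : AEStronglyMeasurable f μ := by
  obtain ⟨p, hp⟩ := hf.tendsto_poly
  refine aestronglyMeasurable_of_tendsto_ae Filter.atTop
    (fun k => (measurable_ev (p k)).aestronglyMeasurable) ?_
  filter_upwards [hb] with U hU
  exact hp U hU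

theorem C1cl.integrable {f : Mat n → ℝ} {Df : Fin n → Fin n → Mat n → ℝ} (hf : C1cl f Df)
    (hb : ∀ᵐ U ∂μ, ∀ a b, |U a b| ≤ 1) : Integrable f μ := by
  obtain ⟨K, hK0, hK⟩ := hf.bound
  refine Integrable.of_bound (hf.aesm hb) K ?_
  filter_upwards [hb] with U hU
  rw [Real.norm_eq_abs]
  exact (hK U hU).1

theorem C1cl.sq_sub {f : Mat n → ℝ} {Df : Fin n → Fin n → Mat n → ℝ} (hf : C1cl f Df) (m : ℝ) :
    C1cl (fun U => (f U - m) ^ 2) (fun i j U => 2 * (f U - m) * Df i j U) := by
  obtain ⟨K, hK0, hK⟩ := hf.bound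
  refine hf.comp (-K) K (fun U hU => abs_le.mp (hK U hU).1) (fun x => (x - m) ^ 2)
    (fun x => 2 * (x - m)) (fun x _ => ?_) (by fun_prop)
  have h := ((hasDerivAt_id x).sub_const m).pow 2
  refine h.congr_deriv ?_
  simp

/-- variance bound -/
theorem C1cl.variance_le {f : Mat n → ℝ} {Df : Fin n → Fin n → Mat n → ℝ} (hf : C1cl f Df)
    (hμ : SOInv μ) (hn : 2 < n) (L : ℝ) (hL : ∀ᵐ U ∂μ, ∑ i, ∑ j, (Df i j U) ^ 2 ≤ L) :
    ∫ U, (f U - ∫ V, f V ∂μ) ^ 2 ∂μ ≤ L / ((n : ℝ) - 2) := by
  have hn' : (0 : ℝ) < (n : ℝ) - 2 := by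
    have : (2 : ℝ) < n := by exact_mod_cast hn
    linarith
  have h1 := hf.poincare hμ hn
  have h2 : ∫ U, ∑ i, ∑ j, (Df i j U) ^ 2 ∂μ ≤ ∫ _U : Mat n, L ∂μ := by
    refine integral_mono_of_nonneg ?_ (integrable_const _) hL
    exact Filter.Eventually.of_forall fun U => Finset.sum_nonneg fun i _ =>
      Finset.sum_nonneg fun j _ => sq_nonneg _
  rw [le_div_iff₀ hn']
  simp only [integral_const, probReal_univ, smul_eq_mul, one_mul] at h2
  linarith

/-- fourth moment bound -/
theorem C1cl.fourth_moment {f : Mat n → ℝ} {Df : Fin n → Fin n → Mat n → ℝ} (hf : C1cl f Df)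
    (hμ : SOInv μ) (hn : 2 < n) (L : ℝ) (hL : ∀ᵐ U ∂μ, ∑ i, ∑ j, (Df i j U) ^ 2 ≤ L) :
    ∫ U, (f U - ∫ V, f V ∂μ) ^ 4 ∂μ ≤ 5 * (L / ((n : ℝ) - 2)) ^ 2 := by
  have hb := hμ.rotInv.bdd
  have hn' : (0 : ℝ) < (n : ℝ) - 2 := by
    have : (2 : ℝ) < n := by exact_mod_cast hn
    linarith
  set m := ∫ V, f V ∂μ with hm
  have hL0 : 0 ≤ L := by
    obtain ⟨U, hU⟩ := hL.exists
    exact (Finset.sum_nonneg fun i _ => Finset.sum_nonneg fun j _ => sq_nonneg _).trans hU
  have hv := hf.variance_le hμ hn L hL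
  rw [← hm] at hv
  have hg := hf.sq_sub m
  set v := ∫ U, (f U - m) ^ 2 ∂μ with hvdef
  have hv0 : 0 ≤ v := integral_nonneg fun U => sq_nonneg _
  have hgi : Integrable (fun U => (f U - m) ^ 2) μ := hg.integrable hb
  have hg2i : Integrable (fun U => ((f U - m) ^ 2) ^ 2) μ := by
    have := (hg.sq_sub 0).integrable hb
    simpa using this
  have h1 := hg.poincare hμ hn
  have h2 : ∫ U, ∑ i, ∑ j, (2 * (f U - m) * Df i j U) ^ 2 ∂μ ≤ 4 * L * v := by
    rw [hvdef, ← integral_const_mul]
    refine integral_mono_of_nonneg ?_ (hgi.const_mul _) ?_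
    · exact Filter.Eventually.of_forall fun U => Finset.sum_nonneg fun i _ =>
        Finset.sum_nonneg fun j _ => sq_nonneg _
    · filter_upwards [hL] with U hU
      have e : ∑ i, ∑ j, (2 * (f U - m) * Df i j U) ^ 2 =
          4 * (f U - m) ^ 2 * ∑ i, ∑ j, (Df i j U) ^ 2 := by
        rw [Finset.mul_sum]
        refine Finset.sum_congr rfl fun i _ => ?_
        rw [Finset.mul_sum]
        refine Finset.sum_congr rfl fun j _ => by ring
      rw [e]
      calc 4 * (f U - m) ^ 2 * ∑ i, ∑ j, (Df i j U) ^ 2 ≤ 4 * (f U - m) ^ 2 * L := by gcongr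
        _ = 4 * L * (f U - m) ^ 2 := by ring
  have h3 : ∫ U, ((f U - m) ^ 2 - v) ^ 2 ∂μ = ∫ U, (f U - m) ^ 4 ∂μ - v ^ 2 := by
    have e : ∀ U, ((f U - m) ^ 2 - v) ^ 2 = ((f U - m) ^ 2) ^ 2 - 2 * v * (f U - m) ^ 2 + v ^ 2 :=
      fun U => by ring
    simp only [e]
    rw [integral_add (f := fun U => ((f U - m) ^ 2) ^ 2 - 2 * v * (f U - m) ^ 2)
      (g := fun _ => v ^ 2) (hg2i.sub (hgi.const_mul _)) (integrable_const _),
      integral_sub (f := fun U => ((f U - m) ^ 2) ^ 2) (g := fun U => 2 * v * (f U - m) ^ 2) hg2i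
        (hgi.const_mul _), integral_const_mul]
    have e4 : ∀ U, ((f U - m) ^ 2) ^ 2 = (f U - m) ^ 4 := fun U => by ring
    simp only [e4]
    rw [← hvdef]
    simp
    ring
  rw [← hvdef, h3] at h1
  set D := L / ((n : ℝ) - 2) with hD
  have hD0 : 0 ≤ D := div_nonneg hL0 hn'.le
  have hLD : L = D * ((n : ℝ) - 2) := by rw [hD]; field_simp
  have h4 : ((n : ℝ) - 2) * (∫ U, (f U - m) ^ 4 ∂μ - v ^ 2) ≤ ((n : ℝ) - 2) * (4 * D * v) := by
    refine (h1.trans h2).trans (le_of_eq ?_)
    rw [hLD]; ring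
  have h5 := le_of_mul_le_mul_left h4 hn'
  have h6 : D * v ≤ D * D := mul_le_mul_of_nonneg_left hv hD0
  have h7 : v ^ 2 ≤ D ^ 2 := pow_le_pow_left₀ hv0 hv 2
  nlinarith

/-- log-sum-exp -/
theorem C1cl.lse {S : Type*} [Fintype S] [Nonempty S] {h : S → Mat n → ℝ}
    {Dh : S → Fin n → Fin n → Mat n → ℝ} (hh : ∀ s, C1cl (h s) (Dh s)) :
    C1cl (fun U => Real.log (∑ s, Real.exp (h s U)))
      (fun i j U => (∑ s, Real.exp (h s U) * Dh s i j U) / ∑ s, Real.exp (h s U)) := by
  classical
  choose K hK0 hK using fun s => (hh s).bound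
  have h1 : ∀ s, C1cl (fun U => Real.exp (h s U)) (fun i j U => Real.exp (h s U) * Dh s i j U) :=
    fun s => (hh s).comp (-K s) (K s) (fun U hU => abs_le.mp (hK s U hU).1) Real.exp Real.exp
      (fun x _ => Real.hasDerivAt_exp x) Real.continuous_exp.continuousOn
  have h2 := C1cl.sum Finset.univ (fun s _ => h1 s)
  have h3 := h2.comp (∑ s, Real.exp (-K s)) (∑ s, Real.exp (K s)) (fun U hU => by
    refine ⟨Finset.sum_le_sum fun s _ => ?_, Finset.sum_le_sum fun s _ => ?_⟩
    · exact Real.exp_le_exp.mpr (abs_le.mp (hK s U hU).1).1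
    · exact Real.exp_le_exp.mpr (abs_le.mp (hK s U hU).1).2) Real.log (fun x => x⁻¹)
    (fun x hx => by
      refine Real.hasDerivAt_log ?_
      have : 0 < ∑ s, Real.exp (-K s) :=
        Finset.sum_pos (fun s _ => Real.exp_pos _) Finset.univ_nonempty
      exact (this.trans_le hx.1).ne')
    (by
      refine ContinuousOn.inv₀ continuousOn_id fun x hx => ?_
      have : 0 < ∑ s, Real.exp (-K s) :=
        Finset.sum_pos (fun s _ => Real.exp_pos _) Finset.univ_nonempty
      exact (this.trans_le hx.1).ne')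
  refine h3.congr (fun U _ => rfl) (fun U _ i j => ?_)
  rw [div_eq_inv_mul]

/-- the energy of a log-sum-exp is bounded by the energies of the exponents -/
theorem lse_energy {S : Type*} [Fintype S] [Nonempty S] (h : S → ℝ)
    (Dh : S → Fin n → Fin n → ℝ) (L : ℝ) (hL : ∀ s, ∑ i, ∑ j, (Dh s i j) ^ 2 ≤ L) :
    ∑ i, ∑ j, ((∑ s, Real.exp (h s) * Dh s i j) / ∑ s, Real.exp (h s)) ^ 2 ≤ L := by
  set Z := ∑ s, Real.exp (h s) with hZ
  have hZpos : 0 < Z := Finset.sum_pos (fun s _ => Real.exp_pos _) Finset.univ_nonempty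
  have hcs : ∀ x : S → ℝ, ((∑ s, Real.exp (h s) * x s) / Z) ^ 2 ≤
      (∑ s, Real.exp (h s) * (x s) ^ 2) / Z := by
    intro x
    have h1 : (∑ s, Real.exp (h s) * x s) ^ 2 ≤ Z * ∑ s, Real.exp (h s) * (x s) ^ 2 := by
      have := Finset.sum_sq_le_sum_mul_sum_of_sq_le_mul (Finset.univ : Finset S)
        (r := fun s => Real.exp (h s) * x s) (f := fun s => Real.exp (h s))
        (g := fun s => Real.exp (h s) * (x s) ^ 2)
        (fun s _ => (Real.exp_pos _).le) (fun s _ => by positivity) (fun s _ => le_of_eq (by ring))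
      exact this
    rw [div_pow, div_le_div_iff₀ (by positivity) hZpos]
    nlinarith
  calc ∑ i, ∑ j, ((∑ s, Real.exp (h s) * Dh s i j) / Z) ^ 2
      ≤ ∑ i, ∑ j, (∑ s, Real.exp (h s) * (Dh s i j) ^ 2) / Z :=
        Finset.sum_le_sum fun i _ => Finset.sum_le_sum fun j _ => hcs fun s => Dh s i j
    _ = (∑ s, Real.exp (h s) * ∑ i, ∑ j, (Dh s i j) ^ 2) / Z := by
        simp only [← Finset.sum_div]
        congr 1
        calc ∑ i, ∑ j, ∑ s, Real.exp (h s) * (Dh s i j) ^ 2
            = ∑ i, ∑ s, ∑ j, Real.exp (h s) * (Dh s i j) ^ 2 :=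
              Finset.sum_congr rfl fun i _ => Finset.sum_comm
          _ = ∑ s, ∑ i, ∑ j, Real.exp (h s) * (Dh s i j) ^ 2 := Finset.sum_comm
          _ = _ := by
              refine Finset.sum_congr rfl fun s _ => ?_
              rw [Finset.mul_sum]
              exact Finset.sum_congr rfl fun i _ => by rw [Finset.mul_sum]
    _ ≤ (∑ s, Real.exp (h s) * L) / Z := by
        gcongr with s _
        exact hL s
    _ = L := by
        rw [← Finset.sum_mul, ← hZ]
        field_simp

/-! ### from `O(n)` to `SO(n)` -/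

/-- change the sign of the first row -/
def flipR (U : Mat n) : Mat n := fun i j => if i.val = 0 then - U i j else U i j

/-- A law on `O(n)` which is right invariant. -/
structure OInv (ν : Measure (Mat n)) : Prop where
  mem : ∀ᵐ U ∂ν, Matrix.of U ∈ Matrix.orthogonalGroup (Fin n) ℝ
  inv : ∀ V ∈ Matrix.orthogonalGroup (Fin n) ℝ, ν.map (rmul V) = ν

/-- move to `SO(n)` by flipping the first row if necessary -/
noncomputable def toSO (U : Mat n) : Mat n :=
  if (Matrix.of U).det = 1 then U else flipR U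

theorem flipR_eq (U : Mat n) : Matrix.of (flipR U) =
    Matrix.diagonal (fun i : Fin n => if i.val = 0 then (-1 : ℝ) else 1) * Matrix.of U := by
  ext i j
  rw [Matrix.diagonal_mul]
  simp only [flipR, Matrix.of_apply]
  split_ifs <;> ring

theorem det_flipR (hn : 0 < n) (U : Mat n) :
    (Matrix.of (flipR U)).det = - (Matrix.of U).det := by
  rw [flipR_eq, Matrix.det_mul, Matrix.det_diagonal]
  have : ∏ i : Fin n, (if i.val = 0 then (-1 : ℝ) else 1) = -1 := by
    rw [Finset.prod_eq_single (⟨0, hn⟩ : Fin n)]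
    · simp
    · intro b _ hb
      have : b.val ≠ 0 := fun h => hb (Fin.ext h)
      simp [this]
    · intro h; exact absurd (Finset.mem_univ _) h
  rw [this]; ring

theorem flipR_orth (U : Mat n) (hU : Matrix.of U ∈ Matrix.orthogonalGroup (Fin n) ℝ) :
    Matrix.of (flipR U) ∈ Matrix.orthogonalGroup (Fin n) ℝ := by
  rw [Matrix.mem_orthogonalGroup_iff] at hU ⊢
  rw [flipR_eq, Matrix.transpose_mul, Matrix.diagonal_transpose]
  have h1 : Matrix.of U * (Matrix.of U).transpose = 1 := hU
  calc Matrix.diagonal (fun i : Fin n => if i.val = 0 then (-1 : ℝ) else 1) * Matrix.of U *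
        ((Matrix.of U).transpose * Matrix.diagonal (fun i : Fin n => if i.val = 0 then (-1 : ℝ) else 1))
      = Matrix.diagonal (fun i : Fin n => if i.val = 0 then (-1 : ℝ) else 1) *
        (Matrix.of U * (Matrix.of U).transpose) *
        Matrix.diagonal (fun i : Fin n => if i.val = 0 then (-1 : ℝ) else 1) := by
        simp only [Matrix.mul_assoc]
    _ = 1 := by
        rw [h1, Matrix.mul_one, Matrix.diagonal_mul_diagonal]
        ext i j
        rw [Matrix.diagonal_apply, Matrix.one_apply]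
        split_ifs <;> norm_num

theorem measurable_flipR : Measurable (flipR (n := n)) := by
  unfold flipR
  refine measurable_pi_lambda _ fun i => measurable_pi_lambda _ fun j => ?_
  split_ifs <;> fun_prop

theorem measurable_det_of : Measurable (fun U : Mat n => (Matrix.of U).det) := by
  have : (fun U : Mat n => (Matrix.of U).det) =
      fun U : Mat n => ∑ σ : Equiv.Perm (Fin n), ((Equiv.Perm.sign σ : ℤ) : ℝ) * ∏ i, U (σ i) i := by
    funext U
    rw [Matrix.det_apply']
    rfl
  rw [this]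
  fun_prop

theorem measurable_toSO : Measurable (toSO (n := n)) := by
  unfold toSO
  exact Measurable.ite (measurableSet_eq_fun measurable_det_of measurable_const) measurable_id
    measurable_flipR

theorem toSO_mem (hn : 0 < n) (U : Mat n) (hU : Matrix.of U ∈ Matrix.orthogonalGroup (Fin n) ℝ) :
    Matrix.of (toSO U) ∈ Matrix.specialOrthogonalGroup (Fin n) ℝ := by
  rw [Matrix.mem_specialOrthogonalGroup_iff]
  unfold toSO
  split_ifs with h
  · exact ⟨hU, h⟩
  · refine ⟨flipR_orth U hU, ?_⟩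
    rw [det_flipR hn]
    have h1 := det_sq_of_orth hU
    have h2 : ((Matrix.of U).det - 1) * ((Matrix.of U).det + 1) = 0 := by linear_combination h1
    rcases mul_eq_zero.mp h2 with h3 | h3
    · exact absurd (by linarith) h
    · linarith

theorem toSO_rmul (U : Mat n) (V : Matrix (Fin n) (Fin n) ℝ) (hV : V.det = 1) :
    toSO (rmul V U) = rmul V (toSO U) := by
  have h1 : (Matrix.of (rmul V U)).det = (Matrix.of U).det := by
    have : Matrix.of (rmul V U) = Matrix.of U * V := by ext; rfl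
    rw [this, Matrix.det_mul, hV, mul_one]
  unfold toSO
  rw [h1]
  split_ifs with h
  · rfl
  · funext i j
    simp only [flipR, rmul_apply]
    split_ifs
    · rw [← Finset.sum_neg_distrib]
      exact Finset.sum_congr rfl fun k _ => by ring
    · rfl

theorem OInv.toSOInv {ν : Measure (Mat n)} (hν : OInv ν) (hn : 0 < n) : SOInv (ν.map toSO) where
  mem := by
    rw [ae_map_iff measurable_toSO.aemeasurable]
    · filter_upwards [hν.mem] with U hU
      exact toSO_mem hn U hU
    · -- measurability of the special orthogonal group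
      have : {U : Mat n | Matrix.of U ∈ Matrix.specialOrthogonalGroup (Fin n) ℝ} =
          {U : Mat n | (∀ i j, (Matrix.of U * (Matrix.of U).transpose) i j = (1 : Matrix (Fin n) (Fin n) ℝ) i j) ∧
            (Matrix.of U).det = 1} := by
        ext U
        simp only [Set.mem_ofPred_eq, Matrix.mem_specialOrthogonalGroup_iff,
          Matrix.mem_orthogonalGroup_iff]
        constructor
        · rintro ⟨h1, h2⟩
          exact ⟨fun i j => congrFun (congrFun h1 i) j, h2⟩
        · rintro ⟨h1, h2⟩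
          exact ⟨by ext i j; exact h1 i j, h2⟩
      rw [this]
      have e : {U : Mat n | ∀ i j, (Matrix.of U * (Matrix.of U).transpose) i j = (1 : Matrix (Fin n) (Fin n) ℝ) i j}
          = ⋂ i, ⋂ j, {U : Mat n | (Matrix.of U * (Matrix.of U).transpose) i j = (1 : Matrix (Fin n) (Fin n) ℝ) i j} := by
        ext U; simp
      have hm : MeasurableSet {U : Mat n | ∀ i j, (Matrix.of U * (Matrix.of U).transpose) i j =
          (1 : Matrix (Fin n) (Fin n) ℝ) i j} := by
        rw [e]
        refine MeasurableSet.iInter fun i => MeasurableSet.iInter fun j => ?_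
        refine measurableSet_eq_fun ?_ measurable_const
        simp only [Matrix.mul_apply, Matrix.transpose_apply, Matrix.of_apply]
        fun_prop
      exact hm.inter (measurableSet_eq_fun measurable_det_of measurable_const)
  inv V hV := by
    have hVd := (Matrix.mem_specialOrthogonalGroup_iff.mp hV).2
    rw [Measure.map_map (continuous_rmul V).measurable measurable_toSO]
    have : rmul V ∘ toSO = toSO ∘ rmul V := by
      funext U
      exact (toSO_rmul U V hVd).symm
    rw [this, ← Measure.map_map measurable_toSO (continuous_rmul V).measurable,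
      hν.inv V (Matrix.mem_specialOrthogonalGroup_iff.mp hV).1]

end Crest.Agent.Lib.OrthPoinc
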